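import Crest.Agent.X212.Pte3.Th
import Crest.Agent.X212.Kit16.Th
import Crest.Agent.X212.End14.Free

/-! Row 212, PART-E: representatives of solutions solve; density. -/

set_option autoImplicit false
set_option linter.unusedSectionVars false
noncomputable section
open scoped Manifold ContDiff Topology InnerProductSpace
open MeasureTheory Set Function Filter

namespace Crest.Agent.X212.Pte3
open An M Nd18 Mod61 Nk89 Cht98 Rf65 Eqv71 Wrd81
open An.Job (SolOn unc_of)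

variable {Wi : Type} {X : Mf 4} {A κ lam : Type} [Fintype A] [Fintype κ] [Fintype lam]
  [DecidableEq lam] {M : Mark X A κ} {W : World M} {N : ML M lam} {Λ : Lns W N}
  {A' h : Type} [Fintype A'] [DecidableEq A'] [Fintype h] {r n : ℕ}
  {J : Job Wi Λ A' h r n} {c : M.Cl} {σ : Cel A'} {p : Prt A A' h} {U : Type} [Fintype U] {δ : ℝ}
  {b : Bp J c} {E : EC b p U δ} {Adm : (Wi →₀ ℝ) → Prop} {q : Wi →₀ ℝ}

theorem cc_pc {π : Reg A} (hπ : M.sys.Piece c.1 π) {z : (W.Z c).M} (hz : z ∈ W.pc c π) :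
    connectedComponent z = W.pc c π :=
  ((Cyl58.isClopen_pc _ hπ).connectedComponent_subset hz).antisymm
    ((Cyl58.isConnected_pc _ hπ).subset_connectedComponent hz)

namespace CS
variable (H : CS σ E) {y : J.Obc c} {x : Pnt E.o r} {ψ : E.K}
include H

theorem Lk : Lk J σ (b.F p U δ) p (b.θ p U) (b.e p U δ) (b.τ p U) := H.lk H.eo.d0 H.eo.d1 H.hb

section one
variable (S : SolOn p σ q y) (hs : ∀ a : p.V, x.t.1 a = y.s a)
  {u : (W.Z c).M → CL y.x.m.V E.o.m.V} {ζ : Circle}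
  (e : EqOn (J.B c) (J.G c (b.θ p U x.t)).F (W.un c p.P) y.x x.cfg u ζ)
include S hs

theorem fr : FrEq J c p y.s (b.θ p U x.t) := H.pok.fr_eq H.ok H.mem S.ov (H.ovx x) (θ_eq hs)

include e

theorem cr : CR0 (J.B c) (J.G c y.s) (J.B c) (J.G c (b.θ p U x.t)) (W.un c p.P) (W.un c p.P) id
    (fun z a i => (J.B c).P a i z) (J.B c).l y.x x.cfg u ζ :=
  ⟨ad0 S.adm, x.ad0 H.F, fun z hz => S.off z fun k => hz (un_sub H.pok k),
    fun z hz => x.off H.F z fun k => hz (H.F.sub k),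
    ceq_on e fun z hz a => (H.fr S hs z hz a).1.symm⟩

theorem same {π : Reg A} (hπ : π ∈ p.P) :
    SameT (J.G c y.s).F y.x (W.pc c π) (J.G c (b.θ p U x.t)).F x.cfg (W.pc c π) :=
  H.Lk.same ⟨ad0 S.adm, H.ok.memO H.mem S.ov⟩ (H.fr S hs) e hπ

theorem nz : r = 0 ∨ ‖x.z‖ = 1 := S.adm.z.imp id fun k => (ceq_norm_z e).trans k

theorem zr : (EC.tot b p U δ q x.t).Zr x.cfg (W.un c p.P) (W.un c p.P') := by
  have g := H.pok.kt2 H.ok H.mem S.ov (H.ovx x) (θ_eq hs)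
  have t := H.pok.t_rel H.ok H.mem S.ov (H.ovx x) (θ_eq hs) q
  have k := H.cr S hs e
  obtain ⟨h1, h2, h3, h4⟩ := tot_ev (b := b) (U := U) (δ := δ) (t := x.t) (q := q) x.cfg
  refine ⟨fun z hz => (h1 z).trans ((t.eD g.toLG k (un_sub H.pok hz)).trans ?_),
    fun z hz => (h2 z).trans ((t.eC g.toLG k hz).trans ?_),
    funext fun i => (h3 i).trans (neg_eq_zero.2 ((t.S k i).trans ?_)), h4.trans (funext fun i => ?_)⟩
  · rw [S.D z hz, map_zero, ← csL_apply, map_zero]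
  · rw [S.C z hz, map_zero]
  · rw [S.S, mul_zero]
  · rcases H.nz S hs e with k | k
    · exact (show Fin (min r 1) → False from k ▸ Fin.elim0) i |>.elim
    · exact (congrArg (fun v => v ^ 2 - 1) k).trans (by simp)

theorem cut_sol {i : p.H} {a : (J.cut c i).H (J.B c) E.o.m}
    (f : (J.cut c i).Eqv (J.cut c i) (J.B c) (J.B c) u (y.ψ i) a) :
    (J.cut c i).Sol (J.B c) (J.G c (b.θ p U x.t)).F (J.σc c q (b.θ p U x.t) i) x.cfg a :=
  have g := H.pok.kt2 H.ok H.mem S.ov (H.ovx x) (θ_eq hs)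
  (PcRel0.sol (H.pok.sc_rel H.ok H.mem S.ov (H.ovx x) (θ_eq hs) i.2 q) g.toLG
    (H.ok.ct σ H.mem _ S.ov.1 c S.inf i (unc_of H.pok.pc (H.pok.nb i i.2))) (H.cut_ok H.hb x.ht i)
    (Cnt93.rel_refl g.hB (H.cut_sub i)) (H.cr S hs e) f).2 (S.cut i i.2)

theorem free (f : Fre p y) : x.Free (AlE E.o) := by
  refine End14.free H.ee E.o r x fun z hz => ?_
  obtain ⟨π, h1, h2⟩ := mem_un.1 hz
  have hπ := H.pok.pc π h1
  have k := H.same S hs e h1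
  rw [cc_pc hπ h2]
  rcases f π h1 with ⟨a, ha, h3⟩ | h3 | h3
  · obtain ⟨d, h4⟩ := Option.ne_none_iff_exists'.1 h3
    obtain ⟨w, hw⟩ := H.U_ne (U := U) (b := b) H.eo.d0 H.eo.d1 (⟨a, ha⟩, d) le_rfl
    have := H.ok.end_sub (t := J.Θ b.s) ⟨ha.2, b.br, b.O, ha.1⟩ (P := {π}) (fun _ e => e ▸ hπ)
      ⟨π, rfl, h4⟩ hw.1
    rw [un_one] at this
    exact .inl ⟨_, w, hw, this⟩
  · exact .inr (.inl (k.sp.1 h3))
  · refine .inr (.inr ⟨fun k' => ?_, fun k' => h3.2 (.inl (k.lin.2 (Kit16.lin_of_red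
      (x.ad0 H.F).conn (Cyl58.isClopen_pc _ hπ).2 (Cyl58.isConnected_pc _ hπ).2 k')))⟩)
    obtain ⟨π', h4, h5⟩ := mem_un.1 k'
    exact h3.1 (Cyl58.pc_unique _ (H.pok.pc _ (H.pok.sub h4)) hπ h5 h2 ▸ h4)

end one

variable {K : Pnt E.o r → Prop} {d : ℤ} (g : (H.th K d).OK Adm)

/-- **representatives of solutions are solutions** -/
theorem sol (S : SolOn p σ q y) (f : Fre p y) (R : E.RepC y x ψ) (k : K x) :
    (H.pb g).Sol q ⟨(), x, ψ⟩ := by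
  obtain ⟨u, ζ, e, e'⟩ := R.e
  refine ((H.cu_ok K d).sol_iff g q ⟨(), x, ψ⟩).2
    ⟨⟨⟨H.free S R.s e f, k⟩, H.zr S R.s e⟩, fun i => ?_⟩
  rw [tot_cu]
  exact H.cut_sol S R.s e (e' i)

theorem onto_F {x : Pnt E.o r} (k : E.RegF q x) : g.Q.Onto q ⟨(), x⟩ ∅ := fun v => by
  obtain ⟨f, h1, h2, h3⟩ := k
  obtain ⟨w, hw⟩ := h3 v
  rw [fderiv_rep H.F (by norm_num) ⟨h1, h2⟩ (g.repF () q) x.mem_U] at hw
  exact ⟨w, 0, (congrArg _ (Fintype.sum_empty _)).trans ((add_zero _).trans hw)⟩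

omit H in
/-- a connected set in a part lies in a piece -/
theorem exists_pc (hp : J.POK σ c p) {V : Set X.M} (hV : IsPreconnected V) {z : X.M} (hz : z ∈ V)
    (k : V ⊆ ⋃ π ∈ p.P, M.sys.U π) : ∃ π ∈ p.P, V ⊆ M.sys.U π := by
  have := M.con
  obtain ⟨π, h1, h2⟩ := mem_iUnion₂.1 (k hz)
  refine ⟨π, h1, hV.subset_left_of_subset_union (v := ⋃ π' ∈ p.P \ {π}, M.sys.U π')
    (M.sys.isOpen_U π) (isOpen_biUnion fun _ _ => M.sys.isOpen_U _) (disjoint_iUnion₂_right.2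
      fun π' k' => disjoint_left.2 fun w a a' =>
        k'.2 ((hp.pc _ k'.1).unique c.2 (hp.pc π h1) a' a)) (fun w hw => ?_) ⟨z, hz, h2⟩⟩
  obtain ⟨π', h3, h4⟩ := mem_iUnion₂.1 (k hw)
  by_cases e : π' = π
  exacts [.inl (e ▸ h4), .inr (mem_biUnion ⟨h3, e⟩ h4)]

section dens
variable (S : SolOn p σ q y) (f : Fre p y) (R : E.RepC y x ψ) (k : K x) (hb : b.s = y.s)
  (hR : CRich J c σ p) (hI : Job.In p y)
include S f R k hb hR hI

theorem onto_T (ha : Adm q)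
    (hT : ∀ s ∈ Job.cl σ, Sys.inf (J.Θ s).2 = c.1 → ∀ π ∈ p.P, J.RichT s π) :
    ∃ S, g.Q.Onto q ⟨(), x⟩ S := by
  obtain ⟨u, ζ, e, -⟩ := R.e
  have t : b.θ p U x.t = y.s := (θ_self (hb ▸ R.s)).trans hb
  exact Wrd81.Lk.dens g H.Lk ⟨hR.z, hT, hR.S, hR.C⟩ ha
    ((g.sol_iff q ⟨(), x⟩).2 ⟨⟨H.free S R.s e f, k⟩, H.zr S R.s e⟩) (t ▸ S.cell) S.adm
    (H.ok.memO H.mem S.ov) hI (H.fr S R.s) e (φ := fun z _ => ‖z‖ ^ 2 - 1)
    (fun y => funext fun _ => show (0 : ℝ) - 0 + (‖y.z‖ ^ 2 - 1) = _ by simp)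
    (Kit16.row_min ((H.nz S R.s e).imp id fun k => norm_ne_zero_iff.1 (k.trans_ne one_ne_zero)))

set_option maxHeartbeats 1000000 in
/-- **density with the cuts** -/
theorem onto (hn : ∀ i, IsPreconnected (J.nb i)) (h1 : ∃ S, g.Q.Onto q ⟨(), x⟩ S) :
    ∃ S, (H.pb g).Onto q ⟨(), x, ψ⟩ S := by
  obtain ⟨u, ζ, e, e'⟩ := R.e
  have t : b.θ p U x.t ∈ Job.cl σ := ((θ_self (hb ▸ R.s)).trans hb).symm ▸ S.cell
  refine (H.cu_ok K d).onto g (x := ⟨(), x, ψ⟩) (H.sol g S f R k) h1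
    (P := fun i w => J.cc i w (b.θ p U x.t) ≠ 0 ∧ J.co w (b.θ p U x.t) = 0 ∧
      (∀ i', i' ≠ i.1 → J.cc i' w (b.θ p U x.t) = 0) ∧ J.Nn w (b.θ p U x.t))
    (fun i w a => ⟨?_, fun j hj => ?_⟩) fun i N hN hA hT => ?_
  · obtain ⟨h2, h3, h4⟩ := τw_eq (c := c) a.2.2.2 x.cfg
    rw [a.2.1, zero_smul] at h2 h3 h4
    exact ⟨fun z _ => neg_eq_zero.2 (congrFun h2 z), fun z _ => neg_eq_zero.2 (congrFun h3 z),
      neg_eq_zero.2 h4, neg_zero⟩
  · exact (congrArg (· • x.cfg.tc (J.B c) (J.G c (b.θ p U x.t)).F (J.cut c j)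
      ((J.tp c).tc (J.tc j w))) (a.2.2.1 j fun e => hj (Subtype.ext e))).trans
        (ContinuousLinearMap.ext fun v => zero_smul ℝ _)
  · have x0 : (J.ct i).x0 ∈ J.nb i := (H.ok.nb i).2.sub ⟨(0, 0), rfl⟩
    obtain ⟨π, h2, h3⟩ := exists_pc H.pok (hn i) x0 (H.pok.nb i i.2)
    have s := H.same S R.s e h2
    refine H.Lk.cut (y := x) h2 subset_rfl (h3 x0) (H.cut_ok H.hb x.ht i) ?_
      (hR.C _ t (H.ovx x).2 π h2 i i.2 h3) (H.cut_sol S R.s e (e' i)) hN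
      (fun χ => tot_cu (b := b) (U := U) (δ := δ) (q := q) (t := x.t) i ▸ hA χ) fun w a => ?_
    · by_cases h4 : π ∈ p.P'
      · have z : x.z ≠ 0 := norm_ne_zero_iff.1 (((H.nz S R.s e).resolve_left fun k =>
          ((hR.z k).1.le h4).elim).trans_ne one_ne_zero)
        obtain ⟨j, hj⟩ : ∃ j, x.z j ≠ 0 :=
          by_contra fun k => z (by ext j; simpa using not_exists.1 k j)
        exact .inl ⟨s.sp.1 (hI.sp π h4), .z j, trivial, hj⟩
      · have := not_or.1 (hI.ir π h2 h4)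
        rw [s.lin, s.flat] at this
        exact .inr ⟨this.1, by_contra fun k => this.2 fun z hz => by_contra fun k' => k ⟨z, hz, k'⟩⟩
    · exact (N.smul_mem_iff a.1).1 (hT w a)

end dens

end CS

end Crest.Agent.X212.Pte3
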