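import Crest.Agent.X212.Pte3.Bas
import Crest.Agent.X212.Gb54.Gm
import Crest.Agent.X212.Nk89.Geo

/-! Row 212, PART-E: the moduli problem of a chart. -/

set_option autoImplicit false
set_option linter.unusedSectionVars false
noncomputable section
open scoped Manifold ContDiff Topology InnerProductSpace
open MeasureTheory Set Function Filter

namespace Crest.Agent.X212.Pte3
open An M Nd18 Mod61 Nk89 Cht98 Rf65 Eqv71 Wrd81

variable {Wi : Type} {X : Mf 4} {A κ lam : Type} [Fintype A] [Fintype κ] [Fintype lam]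
  [DecidableEq lam] {M : Mark X A κ} {W : World M} {N : ML M lam} {Λ : Lns W N}
  {A' h : Type} [Fintype A'] [DecidableEq A'] [Fintype h] {r n : ℕ}
  {J : Job Wi Λ A' h r n} {c : M.Cl} {σ : Cel A'} {p : Prt A A' h} {U : Type} [Fintype U] {δ : ℝ}
  {b : Bp J c} {E : EC b p U δ} {Adm : (Wi →₀ ℝ) → Prop} {q : Wi →₀ ℝ}

theorem ax_mono {Q : Prob Wi} (a : Q.Ax Adm) {Adm' : (Wi →₀ ℝ) → Prop} (k : ∀ q, Adm' q → Adm q) :
    Q.Ax Adm' := { a with slc := fun q x e => a.slc q x (k q e) }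

variable (σ E) in
/-- a smooth chart -/
structure CS : Prop extends PG J c σ p where
  eo : E.OK
  hb : J.Ov σ c b.s
  sm : SmC E

variable (σ E Adm) in
/-- a smooth chart of constant index -/
structure CG : Prop extends CS σ E where
  ix : IxC E Adm

namespace CS
variable (H : CS σ E)
include H

/-- the ends -/
abbrev ee : Ends (b.F p U δ) δ := H.ends U b H.eo.d0 H.eo.d1

theorem F : (b.F p U δ).OK := H.fam H.eo.d0 H.eo.d1

theorem lit : H.ee.Lit E.o E.R := ⟨H.eo.R5, H.eo.lit⟩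

theorem ovx (x : Pnt E.o r) : J.Ov σ c (b.θ p U x.t) := H.ov H.hb x.ht

theorem cr0 {x x' : Pnt E.o r} {w : _} {ζ : Circle} (ht : x'.t = x.t) (e : x.Eq x' w ζ) :
    CR0 (J.B c) (J.G c (b.θ p U x.t)) (J.B c) (J.G c (b.θ p U x.t)) (W.un c p.P) (W.un c p.P) id
      (fun z a i => (J.B c).P a i z) (J.B c).l x.cfg x'.cfg w ζ :=
  ⟨x.ad0 H.F, ht ▸ x'.ad0 H.F, fun z hz => x.off H.F z fun k => hz (H.F.sub k),
    fun z hz => x'.off H.F z fun k => hz (H.F.sub k), e⟩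

set_option maxRecDepth 4000 in
theorem natC (i : p.H) (w : Wi) (Al) : NatC E.o E.o Al ((cu p U δ b).σ i w) :=
  fun y y' _ _ ht _ e η a => by
    have := H.ok.tc_nat H.mem (H.ovx y) H.cl (Job.unc_of H.pok.pc (H.pok.nb i i.2)) (H.cut_sub i) w
      (H.cr0 ht e) η a
    rw [ev_tm, ev_tm, ht]
    exact this

/-- the theory, for any stratum and any index -/
@[reducible] def th (K : Pnt E.o r → Prop) (d : ℤ) : Th (b.F p U δ) r n (min r 1) Wi :=
  thE (Gb54.gmE E.o H.F (k := 8) (by norm_num) r H.ee.hdy) (b.e p U δ) (b.τ p U) K d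

theorem cu_ok (K : Pnt E.o r → Prop) (d : ℤ) : (cu p U δ b).OK (H.th K d) where
  ok i _ ht := H.cut_ok H.hb ht i
  sub := H.cut_sub
  rp _ := H.sm.rc
  nat _ _ i w := H.natC i w _
  cpt _ i w y := (Hol14.cpt_tc (c := y.cfg) (B := J.B c) (F := (J.G c (b.θ p U y.t)).F)
    (k := J.cut c i) ((J.tp c).tc (J.tc i w))).smul (J.cc i w (b.θ p U y.t))

theorem th_ok {K : Pnt E.o r → Prop} {d : ℤ}
    (K_eqv : ∀ y y' w, y'.t = y.t → AlE E.o w 1 → y.Eq y' w 1 → K y → K y')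
    (K_open : ∀ y, K y → ∀ᶠ v in 𝓝 (y.pt 8), ∀ y' : Pnt E.o r, y'.pt 8 = v → K y')
    (ix : ∀ q y, Adm q → K y → Idx 8 (EC.tot b p U δ q) y d) :
    (H.th K (d + 2 * r + Module.finrank ℝ (Tq p U) - 2 * n - (min r 1 : ℕ))).OK Adm :=
  thE_ok H.F (by norm_num) ((Map77.adj_rem H.F).rp H.sm.aff) (fun w => (H.sm.sm w).rp H.F)
    (H.nat_e H.hb) (H.nat_τ H.hb) K_eqv
    (fun _ y _ k _ => (K_open y k).mono fun _ a y' e _ => a y' e) fun q y a k _ =>
      Gb54.slc_gmE H.F _ y _ (H.sm.aff.tot H.F H.sm.sm q) (ix q y a k)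

section map
variable {K : Pnt E.o r → Prop} {d : ℤ} (g : (H.th K d).OK Adm)

/-- the problem with the cuts -/
abbrev pb : Prob Wi := ((H.cu_ok K d).ext g).prob

theorem T_eq (x : Pnt E.o r) (i : p.H) :
    ((H.cu_ok K d).ext g).T () i q (x.pt 8) = E.row q x i := by
  rw [(H.cu_ok K d).T_pt g q () i x, evC, evC, tot_cu]
  rfl

theorem map : E.Map q ((H.pb g).F () q) := by
  have a := ((H.cu_ok K d).ax g).ax
  have e := ((H.cu_ok K d).ext g).F_eq () q
  refine ⟨a.smF () q, fun x ψ => ?_, fun x ψ i => ?_, fun x ψ i => ?_⟩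
  · exact (congrArg Prod.fst (e (x.pt 8, ψ))).symm ▸ (g.repF () q).2 x
  · exact (congrArg (·.2.1 i) (e (x.pt 8, ψ))).trans (congrArg (· (ψ i)) (H.T_eq g x i))
  · exact congrArg (·.2.2 i) (e (x.pt 8, ψ))

end map

/-- the map of a chart is unique -/
theorem map_eq {f g : E.C → E.Y} (hf : E.Map q f) (hg : E.Map q g) :
    EqOn f g (E.o.U r 8 ×ˢ univ) := fun v hv => by
  have k : ∀ {f : E.C → E.Y}, E.Map q f → ContinuousOn (fun u => f (u, v.2)) (E.o.U r 8) :=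
    fun hf => hf.sm.continuousOn.comp (by fun_prop) fun _ hu => ⟨hu, trivial⟩
  exact eqOn_U H.F (by norm_num) (k hf) (k hg) (fun y => Prod.ext
    ((hf.e y _).unique H.F (by norm_num) (hg.e y _)) (Prod.ext
      (funext fun i => (hf.row y _ i).trans (hg.row y _ i).symm)
      (funext fun i => (hf.nrm y _ i).trans (hg.nrm y _ i).symm))) hv.1

theorem reg_iff {K : Pnt E.o r → Prop} {d : ℤ} (g : (H.th K d).OK Adm) (x : Pnt E.o r) (ψ : E.K) :
    (H.pb g).Reg q ⟨(), x, ψ⟩ ↔ E.Reg q x ψ := by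
  refine ⟨fun k => ⟨_, H.map g, k⟩, fun ⟨f, hf, k⟩ => ?_⟩
  have : fderiv ℝ f (x.pt 8, ψ) = fderiv ℝ ((H.pb g).F () q) (x.pt 8, ψ) :=
    EventuallyEq.fderiv_eq (eventually_of_mem (((isOpen_U H.F).prod isOpen_univ).mem_nhds
      ⟨x.mem_U, trivial⟩) (H.map_eq hf (H.map g)))
  rw [this] at k
  exact k

end CS

namespace CG
variable (H : CG σ E Adm)

/-- the theory is good -/
theorem g : (H.th (fun _ => True) (H.ix.choose + 2 * r + Module.finrank ℝ (Tq p U) - 2 * n -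
    (min r 1 : ℕ))).OK Adm :=
  H.th_ok (fun _ _ _ _ _ _ _ => trivial) (fun _ _ => .of_forall fun _ _ _ => trivial)
    fun q y a _ => H.ix.choose_spec q y a

/-- the problem -/
abbrev Q : Prob Wi := H.pb H.g

theorem ax {Adm' : (Wi →₀ ℝ) → Prop} (k : ∀ q, Adm' q → Adm q) : H.Q.Ax Adm' :=
  ax_mono ((H.cu_ok _ _).ax H.g).ax k

end CG

end Crest.Agent.X212.Pte3
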