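import Crest.Agent.X212.Pte3.Defs
import Crest.Agent.X212.End14.Cyl

/-! Row 212, PART-E: parameters, ends and equations of a chart. -/

set_option autoImplicit false
set_option linter.unusedSectionVars false
noncomputable section
open scoped Manifold ContDiff Topology InnerProductSpace
open MeasureTheory Set Function Filter

namespace Crest.Agent.X212.Pte3
open An M Nd18 Mod61 Nk89 Cht98 Rf65 Eqv71 Wrd81
open An.Job (SolOn StrOn isClopen_un unc_of)

variable {Wi : Type} {X : Mf 4} {A κ lam : Type} [Fintype A] [Fintype κ] [Fintype lam]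
  [DecidableEq lam] {M : Mark X A κ} {W : World M} {N : ML M lam} {Λ : Lns W N}
  {A' h : Type} [Fintype A'] [DecidableEq A'] [Fintype h] {r n : ℕ}
  {J : Job Wi Λ A' h r n} {c : M.Cl} {σ : Cel A'} {p : Prt A A' h} {U : Type} [Fintype U] {δ : ℝ}
  {b : Bp J c} {t : Tq p U} {s : A' → ℝ} {q : Wi →₀ ℝ}

theorem θ_V {a : A'} (k : a ∈ p.V) : b.θ p U t a = t.1 ⟨a, k⟩ := dif_pos k

theorem θ_off {a : A'} (k : a ∉ p.V) : b.θ p U t a = b.s a := dif_neg k

theorem θ_eq (e : ∀ a : p.V, t.1 a = s a) : ∀ a ∈ p.V, s a = b.θ p U t a :=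
  fun a k => ((θ_V k).trans (e ⟨a, k⟩)).symm

theorem θ_self (e : ∀ a : p.V, t.1 a = b.s a) : b.θ p U t = b.s := funext fun a =>
  (em (a ∈ p.V)).elim (fun k => (θ_eq e a k).symm) θ_off

/-- the equations of a chart -/
theorem tot_ev (x : Cfg (W.Z c).M (Option κ) (lam ⊕ lam) r) :
    (∀ z, (EC.tot b p U δ q t).D x z = x.eD (J.G c (b.θ p U t)) (J.τ c q (b.θ p U t)) z) ∧
    (∀ z, (EC.tot b p U δ q t).C x z = x.eC (J.B c) (J.G c (b.θ p U t)) (J.τ c q (b.θ p U t)) z) ∧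
    (∀ i, (EC.tot b p U δ q t).S x i = -(J.τ c q (b.θ p U t)).S x i) ∧
    (EC.tot b p U δ q t).R x = fun _ => ‖x.z‖ ^ 2 - 1 := by
  have e : ∀ S : Finset Wi, (∑ w ∈ S, q w • b.τ p U w) t =
      -ptx _ ⟨fun x z => ∑ w ∈ S, q w • (J.τw c (b.θ p U t) w).D x z,
        fun x z => ∑ w ∈ S, q w • (J.τw c (b.θ p U t) w).C x z,
        fun x i => ∑ w ∈ S, (q w : ℂ) * (J.τw c (b.θ p U t) w).S x i⟩ := fun S => by
    induction S using Finset.cons_induction with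
    | empty => exact neg_zero.symm
    | cons w S k ih =>
      simp only [Finset.sum_cons, Pi.add_apply, ih, Pi.smul_apply, Bp.τ, smul_neg, ← neg_add]
      refine congrArg _ (PtX.eqv.injective (funext fun x => Prod.ext rfl (Prod.ext rfl
        (Prod.ext rfl (funext fun _ => ?_)))))
      exact (add_zero _).trans (mul_zero (q w))
  have k : ∀ {V : Type} [AddCommGroup V] (a b c : V), a - b + 0 + -c = a - (b + c) :=
    fun a b c => by abel
  rw [EC.tot, Pi.add_apply, Finsupp.sum, e]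
  exact ⟨fun z => k (Wz78.dir _ _ _ _ _ z) _ _, fun z => k (x.m.p2 _ z _ - x.m.mu _ z _ _) _ _,
    fun i => (k (0 : ℂ) _ _).trans (zero_sub _),
    funext fun i => show (0 : ℝ) - 0 + (‖x.z‖ ^ 2 - 1) + -0 = _ by simp⟩

theorem tot_cu (i : p.H) : (cu p U δ b).tot q i t = J.σc c q (b.θ p U t) i := CTh.tot_ofT q i t

namespace PG
variable (H : PG J c σ p)
include H

theorem cl : IsClopen (W.un c p.P) := isClopen_un H.pok.pc

theorem one {a : A'} {x : A} (ha : J.hd a = some x) (e : 1 ≤ s a) : (J.Θ s).2 x = s a :=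
  let ⟨_, h1, h2⟩ := H.ok.lin
  (h2 a x ha s (h1.le.trans e)).1

theorem lt_of_ov (hs : J.Ov σ c s) {a : A'} (k : a ∈ p.V) (ha : (J.hd a).isSome) : s a < 1 := by
  obtain ⟨x, hx⟩ := Option.isSome_iff_exists.1 ha
  exact (hs.1.2 a ha).lt_of_ne fun e => (H.pok.fr a k).2 x hx (hs.2.le ((H.one hx e.ge).trans e))

variable (hb : J.Ov σ c b.s)
include hb

theorem ov_of (k : ∀ a ∈ p.V, (J.hd a).isSome → b.θ p U t a < 1) : J.Ov σ c (b.θ p U t) := by
  have d : b.θ p U t ∈ J.dom σ := ⟨fun a v e => (θ_off fun k => by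
      simp [(H.pok.fr a k).1] at e).trans (hb.1.1 a v e), fun a ha => (em (a ∈ p.V)).elim
    (fun k' => (k a k' ha).le) fun k' => (θ_off k').trans_le (hb.1.2 a ha)⟩
  refine ⟨d, Subset.antisymm (fun x hx => ?_) fun x hx => ?_⟩
  · obtain ⟨a, h1, h2⟩ := H.ok.inf σ H.mem _ d x hx
    have := (θ_off fun k' => (k a k' (by simp [h1])).ne h2).symm.trans h2
    exact hb.2.le ((H.one h1 this.ge).trans this)
  · obtain ⟨a, h1, h2⟩ := H.ok.inf σ H.mem _ hb.1 x (hb.2.ge hx)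
    have := (θ_off (t := t) fun k' => (H.pok.fr a k').2 x h1 hx).trans h2
    exact (H.one h1 this.ge).trans this

/-- the walls of live coordinates are free -/
theorem mem_fr {a : A'} (k : a ∈ p.V) {x : A} (ha : J.hd a = some x) : x ∈ M.sys.fr c.1 := by
  have h0 := (H.pok.fr a k).2 x ha
  refine ⟨h0, fun x' hx' => ?_⟩
  obtain ⟨a', h1, h2⟩ := H.ok.inf σ H.mem _ hb.1 x' (hb.2.ge hx')
  have ne : a' ≠ a := fun e => h0 (Option.some.inj ((e ▸ h1).symm.trans ha) ▸ hx')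
  have d : update b.s a 1 ∈ J.dom σ := ⟨fun a'' v e => (update_of_ne (fun k' => by
      simp [k', (H.pok.fr a k).1] at e) _ _).trans (hb.1.1 a'' v e), fun a'' h3 => by
    rcases eq_or_ne a'' a with rfl | k'
    · simp
    · rw [update_of_ne k']; exact hb.1.2 a'' h3⟩
  have e1 : update b.s a 1 a' = 1 := (update_of_ne ne _ _).trans h2
  refine (H.ok.par σ H.mem _ d).2 ?_ ?_ fun e => h0 (e ▸ hx')
  · rw [mem_support, H.one ha (by simp), update_self]; exact one_ne_zero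
  · rw [mem_support, H.one h1 e1.ge, e1]; exact one_ne_zero

theorem mem_iff : t ∈ (b.F p U δ).Q ↔ ∀ a ∈ p.V, (J.hd a).isSome → b.θ p U t a < 1 :=
  ⟨fun ht _ k ha => by_contra fun k' =>
    let ⟨x, hx⟩ := Option.isSome_iff_exists.1 ha
    k' ((H.one hx (not_lt.1 k')).symm.trans_lt (ht x (H.mem_fr hb k hx))),
    fun k => H.ok.memO H.mem (H.ov_of hb k)⟩

/-- **the parameters of a chart lie over the face** -/
theorem ov (ht : t ∈ (b.F p U δ).Q) : J.Ov σ c (b.θ p U t) := H.ov_of hb ((H.mem_iff hb).1 ht)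

theorem mem_Q (hs : J.Ov σ c s) (e : ∀ a : p.V, t.1 a = s a) : t ∈ (b.F p U δ).Q :=
  (H.mem_iff hb).2 fun a k ha => (θ_eq e a k).symm.trans_lt (H.lt_of_ov hs k ha)

theorem convex : Convex ℝ (b.F p U δ).Q := fun t ht t' ht' u v hu hv e =>
  (H.mem_iff hb).2 fun a k ha => by
    have h1 := (H.mem_iff hb).1 ht a k ha
    have h2 := (H.mem_iff hb).1 ht' a k ha
    rw [θ_V k] at h1 h2 ⊢
    exact convex_Iio (1 : ℝ) h1 h2 hu hv e

theorem nat_e : (b.F p U δ).Nat (b.e p U δ) := fun t ht x x' u ζ a a' k k' e => by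
  have o := H.ov hb ht
  obtain ⟨h1, h2, h3, -⟩ := natOn_eq0 (n := n) (m := min r 1) (Λ.B_ok _ _) (H.ok.G_ok H.mem o)
    H.cl.2 (un_sub H.pok) x x' u ζ a a' k k' e
  obtain ⟨h4, h5, h6, -⟩ := H.ok.natOn H.mem o H.cl (τ := ptx (min r 1) (J.τ0 c _)) (un_sub H.pok)
    (H.ok.τ0_nat H.mem o H.cl) (fun _ _ _ => rfl) x x' u ζ a a' k k' e
  refine ⟨fun z hz => (add_zero _).trans ((congrArg₂ (· - ·) (h1 z hz) (h4 z hz)).trans ?_),
    fun z hz i => (add_zero _).trans ((congrArg₂ (· - ·) (h2 z hz i) (h5 z hz i)).trans ?_),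
    fun i => (add_zero _).trans ((congrArg₂ (· - ·) (h3 i) (h6 i)).trans ?_), funext fun i => ?_⟩
  · rw [← csL_apply, ← csL_apply, ← map_sub, ← map_sub, csL_apply]
    exact congrArg (fun v => cs _ _ (u z v)) (add_zero _).symm
  · rw [← map_sub]; exact congrArg _ (add_zero _).symm
  · rw [← mul_sub]; exact congrArg _ (add_zero _).symm
  · exact congrArg (fun v => 0 - 0 + (v ^ 2 - 1)) (ceq_norm_z e)

theorem nat_τ (w : Wi) : (b.F p U δ).Nat (b.τ p U w) := fun t ht x x' u ζ a a' k k' e => by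
  have o := H.ov hb ht
  obtain ⟨h4, h5, h6, -⟩ := H.ok.natOn H.mem o H.cl (τ := ptx (min r 1) (J.τw c _ w)) (un_sub H.pok)
    (H.ok.τw_nat H.mem o H.cl w) (fun _ _ _ => rfl) x x' u ζ a a' k k' e
  refine ⟨fun z hz => (congrArg Neg.neg (h4 z hz)).trans ?_,
    fun z hz i => (congrArg Neg.neg (h5 z hz i)).trans (map_neg _ _).symm,
    fun i => (congrArg Neg.neg (h6 i)).trans (mul_neg _ _).symm, rfl⟩
  rw [← csL_apply, ← map_neg, ← map_neg, csL_apply]
  rfl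

theorem cut_ok (ht : t ∈ (b.F p U δ).Q) (i : p.H) :
    (J.cut c i).OK (J.B c) (J.G c (b.θ p U t)).F :=
  have o := H.ov hb ht
  H.ok.ct σ H.mem _ o.1 c o.2 i (unc_of H.pok.pc (H.pok.nb i i.2))

omit hb

theorem cut_sub (i : p.H) : (J.cut c i).supp ⊆ W.un c p.P := H.ok.cut_sub (H.pok.nb i i.2)

variable (d0 : 0 < δ) (d1 : δ ≤ dl0)
include d0 d1

theorem fam : (b.F p U δ).OK := (H.ends U b d0 d1).ok

theorem lk (hb : J.Ov σ c b.s) : Lk J σ (b.F p U δ) p (b.θ p U) (b.e p U δ) (b.τ p U) :=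
  ⟨H.ok, H.mem, H.pok.pc, H.pok.sub, H.fam d0 d1, rfl, fun _ _ => rfl, rfl, rfl,
    fun _ => H.ov hb, fun _ _ _ _ h1 h2 => ⟨(add_zero _).trans (sub_eq_self.2 h1),
      (add_zero _).trans (sub_eq_self.2 h2)⟩, fun _ _ _ => ⟨-1, by norm_num, fun _ =>
        ⟨(neg_one_smul ℝ _).symm, (neg_one_smul ℝ _).symm, (neg_one_smul ℝ _).symm, neg_zero⟩⟩⟩

theorem U_ne (i : Ed c) {R : ℝ} (hR : 5 ≤ R) : (((H.ends U b d0 d1).P i).U R).Nonempty :=
  have := J.conn_xs i.1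
  ⟨_, End14.pt_U ((H.ends U b d0 d1).okP i) hR (lt_add_one R) 
    (Classical.arbitrary (J.xs i.1).Y.M)⟩

/-- **the active ends** -/
theorem act_iff {i : Ed c} : (H.ends U b d0 d1).Act i ↔ i ∈ EdP c p.P := by
  have ha : Act J.m c i.1 (some i.2) (J.Θ b.s) := ⟨i.1.2.2, b.br, b.O, i.1.2.1⟩
  refine ⟨fun k => ?_, fun k z hz => H.ok.end_sub ha H.pok.pc k hz.1⟩
  obtain ⟨z, hz⟩ := H.U_ne (U := U) (b := b) d0 d1 i le_rfl
  obtain ⟨π, h1, h2⟩ := mem_un.1 (k hz)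
  have := M.con
  obtain ⟨π', h3, h4⟩ := (Sys.existsUnique_adj c.2 i.1.2.1 i.2).exists
  have h5 := H.ok.end_sub ha (P := {π'}) (fun _ e => e ▸ h3) ⟨π', rfl, h4⟩ hz.1
  rw [un_one] at h5
  exact ⟨π, h1, Cyl58.pc_unique _ h3 (H.pok.pc π h1) h5 h2 ▸ h4⟩

end PG

end Crest.Agent.X212.Pte3
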