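import Crest.Agent.X212.Pte3.Nr1

/-! Row 212, PART-E: convergence in a chart with ends, for limits given up to equivalence. -/

set_option autoImplicit false
set_option linter.unusedSectionVars false
noncomputable section
open scoped Manifold ContDiff Topology InnerProductSpace
open MeasureTheory Set Function Filter Real

namespace Crest.Agent.X212.Pte3
open An An.Pre Sob92 Mod61 Nd18 Eqv71 Nk89 Cyf70 End3 End14 Pj41 Neck67 Bki64 Cmp73 Std94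
open Kit16 (AdO eqOn_W)

variable {E : Type} [NormedAddCommGroup E] [NormedSpace ℝ E] [FiniteDimensional ℝ E]
  [MeasurableSpace E] [BorelSpace E]
  {HM : Type} [TopologicalSpace HM] {I : ModelWithCorners ℝ E HM} [I.Boundaryless]
  {M : Type} [TopologicalSpace M] [ChartedSpace HM M] [IsManifold I ∞ M]
  [MeasurableSpace M] [T2Space M] [BorelSpace M] [SecondCountableTopology M]
  {κ : Type} [Fintype κ] {lam : Type} [Fintype lam]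
  {T : Type} [NormedAddCommGroup T] [NormedSpace ℝ T]
  {𝔉 : Fam I M (Option κ) lam T} {δ : ℝ} {r k : ℕ} {α : Type} {l : Filter α} {o : Ref 𝔉}

/-- composition of equivalences over the part -/
theorem eq_post (H : 𝔉.OK) {c : Cfg M (Option κ) lam r} {x x' : Pnt o r} (a : AdO 𝔉 x.t c)
    (ht : x'.t = x.t) {u : M → CL c.m.V o.m.V} {w : M → CL o.m.V o.m.V} {ζ ξ : Circle}
    (e : Mod61.EqOn 𝔉.B (𝔉.G x.t).F 𝔉.Om c x.cfg u ζ) (e' : x.Eq x' w ξ) :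
    Mod61.EqOn 𝔉.B (𝔉.G x.t).F 𝔉.Om c x'.cfg (fun z => w z ∘L u z) (ξ * ζ) := by
  obtain ⟨W, h1, h2⟩ := a.glue H
  exact eqOn_W (c := ⟨c.m, W, c.Φ, c.z⟩) (W := c.W) (ceq_trans_id H.B (H.G _ x.ht) H.Om.2
    (c := ⟨c.m, W, c.Φ, c.z⟩) ⟨a.ok, h1, a.sm, a.pos⟩ (x.ad0 H) (ht ▸ x'.ad0 H) (eqOn_W e h2) e')
    fun b z hz => (h2 b z hz).symm

theorem conj_conj {a b : Type} [Fintype a] [Fintype b] {v : CL (Eu a) (Eu b)} {s p : En b}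
    (h : v ∘L trn v = p) (h1 : trn s ∘L s = p) (h2 : s ∘L trn s = p) (hp : p * p = p) :
    v ∘L (trn v ∘L s ∘L trn (trn v)) ∘L trn v = s := by
  have e := comp_proj h1 hp
  have e' : p ∘L s = s := by rw [← h2, ContinuousLinearMap.comp_assoc, h1, e]
  rw [trn_trn]
  calc _ = (v ∘L trn v) ∘L s ∘L (v ∘L trn v) := rfl
    _ = s := by rw [h, e, e']

section one
variable {P : End 𝔉} {ψ : M → ℝ} {R₀ R : ℝ} (H : 𝔉.OK) (h : P.OK ψ δ R₀) (hR : R₀ ≤ R)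
  (hl : P.Lit o R) {m : Md P.Y.M (Option κ) lam} {v : P.Y.M × ℝ → CL m.V o.m.V}
include H h hR hl

/-- decay to a limit equivalent to the slice -/
theorem eb_post (hv : P.D.Z.Cb v) (k : ℕ) : ∃ A, ∀ t ∈ 𝔉.Q, ∀ W Φ z, P.D.Adm ⟨m, W, Φ, z⟩ →
    Mod61.EqOn P.D.B P.D.Z univ (cy ⟨m, W, Φ, z⟩) (cy (P.sl o (R + 1) t)) v 1 →
    ∀ (c : Cfg M (Option κ) lam r) (W' : c.m.Cn), Adm0 ⟨c.m, W', c.Φ, c.z⟩ 𝔉.B (𝔉.G t) →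
    (∀ a, ∀ x ∈ P.U R₀, W' a x = c.W a x) → ∀ u ζ d R' R'' C, R₀ + 1 ≤ R'' → R' ≤ R'' →
    P.EB c ⟨m, W, Φ, z⟩ u ζ d R' k C →
    P.EB ⟨c.m, W', c.Φ, c.z⟩ (P.sl o (R + 1) t) (fun x => v x ∘L u x) ζ d R'' k (A * |C|) := by
  obtain ⟨A, hA⟩ := cl_post (r := 0) (m := m) (m' := (P.sl o (R + 1) 0).m) h.D hv k
  refine ⟨A, fun t ht W Φ z hβ e c W' hc hW u ζ d R' R'' C h1 h2 eb s hs => ?_⟩
  have hw : ∀ x ∈ win P.Y.M (P.sg * s) 1, R₀ < P.sg * x.2 := fun x hx => by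
    linarith [(abs_lt.1 (mem_win.1 hx)).1]
  have a := (admOn_pb H h ht hc).mono hw
  have b := cls_W (c := P.K.pb c) (W := fun i x => W' i (P.K.ψ x)) (eb s (h2.trans hs))
    fun x hx i => hW i _ (mem_U h le_rfl (hw x hx))
  have b' := Cl.cls (adm_sl H h ht hR hl) isOpen_Ioo a (hA _ _ _ _ _ _ hβ (adm_sl H h ht hR hl) e
    _ _ _ _ _ (cl_of_cls hβ a ⟨b.op, b.m, b.A, b.P⟩))
  rw [abs_mul, abs_of_pos (exp_pos _), ← mul_assoc] at b'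
  exact ⟨b'.op, b'.m, b'.A, b'.P⟩

/-- stabilisers of limits equivalent to the slices -/
theorem stb_post {t t' : T} (ht : t ∈ 𝔉.Q) (ht' : t' ∈ 𝔉.Q) {W Φ z W' Φ' z'}
    (a : P.D.Adm ⟨m, W, Φ, z⟩) (a' : P.D.Adm ⟨m, W', Φ', z'⟩)
    (e : Mod61.EqOn P.D.B P.D.Z univ (cy ⟨m, W, Φ, z⟩) (cy (P.sl o (R + 1) t)) v 1)
    (e' : Mod61.EqOn P.D.B P.D.Z univ (cy ⟨m, W', Φ', z'⟩) (cy (P.sl o (R + 1) t')) v 1)
    (hs : ∀ s ζ, Mod61.EqOn P.D.B P.D.Z univ (cy ⟨m, W, Φ, z⟩) (cy ⟨m, W, Φ, z⟩) s ζ →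
      Mod61.EqOn P.D.B P.D.Z univ (cy ⟨m, W', Φ', z'⟩) (cy ⟨m, W', Φ', z'⟩) s ζ)
    (s : P.Y.M × ℝ → CL o.m.V o.m.V) (ζ : Circle)
    (f : Mod61.EqOn P.D.B P.D.Z univ (cy (P.sl o (R + 1) t)) (cy (P.sl o (R + 1) t)) s ζ) :
    Mod61.EqOn P.D.B P.D.Z univ (cy (P.sl o (R + 1) t')) (cy (P.sl o (R + 1) t')) s ζ := by
  have b := adm_sl H h ht hR hl
  have e1 := ceq_symm_id h.D.B h.D.G isOpen_univ (ad0 a.adm) (ad0 b.adm) e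
  rw [inv_one] at e1
  exact ceq_val isOpen_univ (stb_conj h.D a' (adm_sl H h ht' hR hl) e' (hs _ _
    (stb_conj h.D b a e1 f))) fun x _ => (conj_conj (e.m.uu' x trivial) (f.m.uu x trivial)
      (f.m.uu' x trivial) (b.adm.ok.pidem x)).symm

end one

variable (X : Ends 𝔉 δ)

/-- **convergence of representatives** -/
theorem near2 {R R' d : ℝ} {y₀ : Pnt o r} {𝒰 : Ultrafilter α} {c : α → Cfg M (Option κ) lam r}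
    {c₀ : Cfg M (Option κ) lam r} {t : α → T} {ζ' : α → Circle}
    {m : ∀ a, Md (X.P a).Y.M (Option κ) lam} {W : ∀ a, T → (m a).Cn} {Φ : ∀ a, T → _ → (m a).V}
    {z : X.A → T → EuclideanSpace ℂ (Fin 0)} {v : ∀ a, (X.P a).Y.M × ℝ → CL (m a).V o.m.V}
    {v' : ∀ i a, (X.P a).Y.M × ℝ → CL (c i).m.V (m a).V}
    {e : α → Option κ → Π x : M, TangentSpace I x}
    (hl : X.Lit o R) (hd : δ < d) (ht : Tendsto t 𝒰 (𝓝 y₀.t))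
    (h0 : ∀ᶠ i in (𝒰 : Filter α), AdO 𝔉 (t i) (c i) ∧ ∀ x ∈ 𝔉.Om, ∀ a, e i a x = (𝔉.G (t i)).F.e a x)
    (h0' : c₀.m.OK I 𝔉.B) {g : M → CL c₀.m.V o.m.V} {ξ : Circle}
    (hg : Mod61.EqOn 𝔉.B (𝔉.G y₀.t).F 𝔉.Om c₀ y₀.cfg g ξ)
    {u : ∀ i, M → CL (c i).m.V c₀.m.V} {ζ : α → Circle} (hu : ULim I 𝔉.B 𝒰 𝔉.Om e c c₀ u ζ)
    (hβ : ∀ a, X.Act a → ∀ t ∈ 𝔉.Q, (X.P a).D.Adm ⟨m a, W a t, Φ a t, z a t⟩ ∧
      Mod61.EqOn (X.P a).D.B (X.P a).D.Z univ (cy ⟨m a, W a t, Φ a t, z a t⟩)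
        (cy ((X.P a).sl o (R + 1) t)) (v a) 1)
    (h1 : ∀ a, X.Act a → (∀ᶠ i in (𝒰 : Filter α), ∀ j, ∃ C, (X.P a).EB (c i)
      ⟨m a, W a (t i), Φ a (t i), z a (t i)⟩ (v' i a) (ζ' i) d R' j C) ∧
      ∀ j, ∃ C, ∀ᶠ i in (𝒰 : Filter α), (X.P a).EB (c i)
        ⟨m a, W a (t i), Φ a (t i), z a (t i)⟩ (v' i a) (ζ' i) d R' j C)
    (h2 : ∀ a, X.Act a → ∀ s ζ, Mod61.EqOn (X.P a).D.B (X.P a).D.Z univ
      (cy ⟨m a, W a y₀.t, Φ a y₀.t, z a y₀.t⟩) (cy ⟨m a, W a y₀.t, Φ a y₀.t, z a y₀.t⟩) s ζ →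
      ∀ t, Mod61.EqOn (X.P a).D.B (X.P a).D.Z univ
        (cy ⟨m a, W a t, Φ a t, z a t⟩) (cy ⟨m a, W a t, Φ a t, z a t⟩) s ζ) (hk : 7 ≤ k)
    {hh : Type} [Finite hh] {K : hh → Cut M lam} (hK : ∀ j, (K j).supp ⊆ 𝔉.Om)
    {ψ : ∀ i j, (K j).H 𝔉.B (c i).m} {ψ₀ : ∀ j, (K j).H 𝔉.B c₀.m} {χ₀ : ∀ j, (K j).H 𝔉.B o.m}
    (h3 : ∀ j, (K j).Eqv (K j) 𝔉.B 𝔉.B g (ψ₀ j) (χ₀ j))
    (h4 : ∀ j, CLim 𝒰 c₀.m.J (fun i => u i (K j).x0) (fun i => ψ i j) (ψ₀ j)) :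
    ∃ (y : α → Pnt o r) (y₁ : Pnt o r) (w : M → CL o.m.V o.m.V) (χ : α → ∀ j, (K j).H 𝔉.B o.m)
      (χ₁ : ∀ j, (K j).H 𝔉.B o.m), y₁.t = y₀.t ∧ AlE o w 1 ∧ y₀.Eq y₁ w 1 ∧
      (∀ j, (K j).Eqv (K j) 𝔉.B 𝔉.B w (χ₀ j) (χ₁ j)) ∧
      Tendsto (fun i => ((y i).pt k, χ i)) 𝒰 (𝓝 (y₁.pt k, χ₁)) ∧ ∀ᶠ i in (𝒰 : Filter α),
        (y i).t = t i ∧ ∃ U θ, Mod61.EqOn 𝔉.B (𝔉.G (t i)).F 𝔉.Om (c i) (y i).cfg U θ ∧
          ∀ j, (K j).Eqv (K j) 𝔉.B 𝔉.B U (ψ i j) (χ i j) := by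
  have H := X.ok
  have k0 : ∀ i, ∃ V : (c i).m.Cn, AdO 𝔉 (t i) (c i) → (c i).m.IsConn 𝔉.B (𝔉.G (t i)) V ∧
      ∀ b, ∀ x ∈ 𝔉.Om, V b x = (c i).W b x := fun i => (em (AdO 𝔉 (t i) (c i))).elim
    (fun a => (a.glue H).imp fun _ b _ => b) fun a => ⟨0, fun b => (a b).elim⟩
  choose V hV using k0
  replace hV := h0.mono fun i a => And.intro a (hV i a.1)
  have k1 := fun a (ha : X.Act a) j => eb_post (r := r) H (X.okP a) hl.le (hl.lit a)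
    (cb_eqv (X.okP a).D (hβ a ha _ y₀.ht).1 (adm_sl H (X.okP a) y₀.ht hl.le (hl.lit a))
      (hβ a ha _ y₀.ht).2) j
  choose A hA using k1
  have k2 := fun a (ha : X.Act a) j i (b : (AdO 𝔉 (t i) (c i) ∧ ∀ x ∈ 𝔉.Om, ∀ a,
      e i a x = (𝔉.G (t i)).F.e a x) ∧ (c i).m.IsConn 𝔉.B (𝔉.G (t i)) (V i) ∧
      ∀ b, ∀ x ∈ 𝔉.Om, V i b x = (c i).W b x) C => hA a ha j _ b.1.1.ht _ _ _
    (hβ a ha _ b.1.1.ht).1 (hβ a ha _ b.1.1.ht).2 (c i) (V i) ⟨b.1.1.ok, b.2.1, b.1.1.sm, b.1.1.pos⟩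
    (fun a' x hx => b.2.2 a' x (ha hx)) (v' i a) (ζ' i) d R' (max R' (R + 1)) C
    (le_max_of_le_right (by linarith [hl.le])) (le_max_left _ _)
  obtain ⟨y, y₁, w, U, θ, f, e1, e2, e3, e4, e5, e6⟩ := near' X (k := k)
    (c := fun i => ⟨(c i).m, V i, (c i).Φ, (c i).z⟩) hl (le_max_right R' _) hd ht
    (hV.mono fun i b => ⟨⟨b.1.1.ok, b.2.1, b.1.1.sm, b.1.1.pos⟩, fun x hx => b.1.1.off x hx.2⟩)
    (ulim_post H h0' hg hu ht (hV.mono fun i b => ⟨b.1.1.ok, fun x hx a =>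
      ⟨b.1.2 x hx a, b.2.2 a x hx⟩⟩))
    (fun a ha => ⟨((h1 a ha).1.and hV).mono fun i b j => (b.1 j).elim fun C k =>
      ⟨_, k2 a ha j i b.2 C k⟩, fun j => ((h1 a ha).2 j).elim fun C k =>
      ⟨_, (k.and hV).mono fun i b => k2 a ha j i b.2 C b.1⟩⟩)
    (fun a ha s ζ f t' ht' => stb_post H (X.okP a) hl.le (hl.lit a) y₀.ht ht' (hβ a ha _ y₀.ht).1
      (hβ a ha _ ht').1 (hβ a ha _ y₀.ht).2 (hβ a ha _ ht').2 (fun s ζ f => h2 a ha s ζ f t') s ζ f)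
    hk
  have x0 := fun j => hK j (show (K j).x0 ∈ _ from ⟨(0, 0), rfl⟩)
  have k3 : ∀ j, (K j).Eqv (K j) 𝔉.B 𝔉.B w (χ₀ j) (Cnt93.Rh (K j) (K j) 𝔉.B 𝔉.B w 1 (χ₀ j)) :=
    fun j => (Cnt93.eqv_iff (lmC H e1 e3) (Cnt93.rel_refl H.B (hK j))).2 ⟨1, rfl⟩
  have k4 := fun j => Cnt93.eqv_trans (φ := id) rfl (e3.m.J _ (x0 j)) o.ok.Jsq (h3 j) (k3 j)
  choose η hη using k4
  have k5 := fun j => clim_post (J₁ := o.m.J) o.ok.Jsq (h4 j) (U := fun i => U i (K j).x0)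
    (A := fun i => f i (K j).x0 ∘L g (K j).x0) (A₀ := w (K j).x0 ∘L g (K j).x0)
    (((continuous_id.clm_comp continuous_const).tendsto _).comp (e6 _ (x0 j)).1)
    ((e6 _ (x0 j)).2.mono fun i b => ⟨(congrArg (f i (K j).x0 ∘L ·) (hg.m.J _ (x0 j))).trans
      (congrArg (· ∘L g (K j).x0) b.1), b.2⟩) (η j)
  choose χ k6 k7 using fun j => tendsto_Rh (c := K j) H.B o.ok (u := U) (ψ := fun i => ψ i j)
    (ψ₀ := Cnt93.Rh (K j) (K j) 𝔉.B 𝔉.B w 1 (χ₀ j)) ((hV.and e5).mono fun i b =>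
      ⟨b.1.1.1.ok, me_of_meq b.2.2.m (x0 j)⟩) (by rw [hη j]; exact (k5 j).choose_spec)
  refine ⟨y, y₁, w, fun i j => χ j i, _, e1, e2, e3, k3, e4.prodMk_nhds (tendsto_pi_nhds.2 k6), ?_⟩
  filter_upwards [hV, e5, eventually_all.2 k7] with i b1 b2 b3
  exact ⟨b2.1, U i, θ i, eqOn_W (c := ⟨(c i).m, V i, (c i).Φ, (c i).z⟩) (W := (c i).W) b2.2
    fun a x hx => (b1.2.2 a x hx).symm, b3⟩

end Crest.Agent.X212.Pte3
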