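import Crest.Agent.X212.Pte3.Sol
import Crest.Agent.X212.Pte3.Nr2

/-! Row 212, PART-E: the model of a part. -/

set_option autoImplicit false
set_option linter.unusedSectionVars false
noncomputable section
open scoped Manifold ContDiff Topology InnerProductSpace
open MeasureTheory Set Function Filter

namespace Crest.Agent.X212.Pte3
open An M Nd18 Mod61 Nk89 Cht98 Rf65 Eqv71 Wrd81
open An.Job (SolOn StrOn)
open Kit16 (AdO)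

variable {Wi : Type} {X : Mf 4} {A κ lam : Type} [Fintype A] [Fintype κ] [Fintype lam]
  [DecidableEq lam] {M : Mark X A κ} {W : World M} {N : ML M lam} {Λ : Lns W N}
  {A' h : Type} [Fintype A'] [DecidableEq A'] [Fintype h] {r n : ℕ}
  {J : Job Wi Λ A' h r n} {c : M.Cl} {σ : Cel A'} {p : Prt A A' h} {U : Type} [Fintype U] {δ : ℝ}
  {b : Bp J c} {E : EC b p U δ} {Adm : (Wi →₀ ℝ) → Prop} {q : Wi →₀ ℝ}

theorem ax_shift {Q : Prob Wi} (a : Q.Ax Adm) {x₀ x₁ : Q.X} (i : Q.In x₀) (e : Q.eqv x₀ x₁)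
    {α : Type} {l : Filter α} {y : α → Q.S x₁.1}
    (k : Tendsto (fun k => Q.pt (y k)) l (𝓝 (Q.pt x₁.2))) : ∃ z : α → Q.S x₀.1,
    Tendsto (fun k => Q.pt (z k)) l (𝓝 (Q.pt x₀.2)) ∧ ∀ k, Q.eqv ⟨x₁.1, y k⟩ ⟨x₀.1, z k⟩ := by
  obtain ⟨T, t1, ⟨_, _, t2, -⟩, t3⟩ := a.tr _ _ (a.in_eqv _ _ e i) (Q.eqv.symm e)
  choose z z1 z2 using t3
  exact ⟨fun k => z (y k), t1 ▸ (t2.continuousAt.tendsto.comp k).congr fun k => (z1 _).symm,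
    fun k => z2 _⟩

variable (E) in
/-- the limits of the chart are admissible -/
def LmC : Prop := ∀ i ∈ EdP c p.P, ∀ t, (J.xs i.1).D.Adm (E.lim i t)

namespace CS
variable (H : CS σ E) {y : J.Obc c} {x x' : Pnt E.o r} {ψ ψ' : E.K}
include H

theorem adO (S : SolOn p σ q y) {t : Tq p U} (e : ∀ a : p.V, t.1 a = y.s a) :
    AdO (b.F p U δ) t y.x :=
  have ht := H.mem_Q (U := U) (δ := δ) H.hb S.ov e
  ⟨ht, S.adm.ok, Kit16.connOn_agr (H.pok.agr H.ok H.mem S.ov (H.ov H.hb ht) (θ_eq e))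
    (Pj41.IsConn.on S.adm.conn _), S.adm.sm, S.adm.pos, S.off⟩

/-- equivalent points represent the same objects -/
theorem rep_eqv (S : SolOn p σ q y) (R : E.RepC y x ψ) {K : Pnt E.o r → Prop} {d : ℤ}
    (e : (cu p U δ b).Eqv (H.th K d) ⟨(), x, ψ⟩ ⟨(), x', ψ'⟩) : E.RepC y x' ψ' := by
  obtain ⟨u, ζ, e1, e2⟩ := R.e
  obtain ⟨ht, w, ξ, -, e3, e4⟩ := e
  replace ht : x'.t = x.t := ht
  refine ⟨ht ▸ R.s, _, _, ht ▸ eq_post H.F (H.adO S R.s) ht e1 e3, fun i => ?_⟩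
  exact Cnt93.eqv_trans (φ := id) rfl (e3.m.J _ (H.cut_sub i ⟨(0, 0), rfl⟩)) E.o.ok.Jsq (e2 i) (e4 i)

end CS

/-- **convergence of representatives in a chart** -/
theorem CG.near (H : CG σ E Adm) (L : LmC E) {α : Type} {𝒰 : Ultrafilter α} {q : α → Wi →₀ ℝ}
    {y : α → J.Obc c} {q₀ : Wi →₀ ℝ} {y₀ : J.Obc c} {x₀ : Pnt E.o r} {ψ₀ : E.K}
    (hy : ∀ᶠ k in (𝒰 : Filter α), SolOn p σ (q k) (y k)) (S : SolOn p σ q₀ y₀) (f : Fre p y₀)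
    (s : StrOn p 𝒰 y y₀) (R : E.RepC y₀ x₀ ψ₀) (hT : Tail E 𝒰 y x₀.t) (hS : Stb E x₀.t) :
    ∃ (x : α → Pnt E.o r) (ψ : α → E.K),
      Tendsto (fun k => (((x k).pt 8, ψ k) : E.C)) 𝒰 (𝓝 (x₀.pt 8, ψ₀)) ∧
      ∀ᶠ k in (𝒰 : Filter α), E.RepC (y k) (x k) (ψ k) ∧ Mt E (y k) (x k).t := by
  obtain ⟨t, R', d, ζ', v, h1, h2, h3, h4⟩ := hT
  obtain ⟨u, ζ, h5, h6⟩ := s.lim
  obtain ⟨g, ξ, h7, h8⟩ := R.e
  have a := fun i (k : H.ee.Act i) => (H.act_iff H.eo.d0 H.eo.d1).1 k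
  obtain ⟨x, x₁, w, χ, χ₁, e1, e2, e3, e4, e5, e6⟩ := near2 H.ee (k := 8) (c := fun k => (y k).x)
    (m := fun i => (E.β i).m) (W := fun i t => (E.lim i t).W) (Φ := fun i t => (E.lim i t).Φ)
    (z := fun i t => (E.lim i t).z) (v := E.v) (v' := v) (e := fun k => J.fr c (y k).s)
    (K := fun i : p.H => J.cut c i) (ψ := fun k i => (y k).ψ i) (ψ₀ := fun i => y₀.ψ i) (χ₀ := ψ₀)
    H.lit h2 h1 ((hy.and h3).mono fun k e => ⟨H.adO e.1 e.2.1, fun z hz j =>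
      (congrFun (congrFun ((W.L J.m c).F_e (Mark.mem_Ω _ (H.ok.memO H.mem e.1.ov))) j) z).symm.trans
        (H.pok.fr_eq H.ok H.mem e.1.ov (H.ov H.hb (H.adO e.1 e.2.1).ht) (θ_eq e.2.1) z hz j).1⟩)
    S.adm.ok h7 h5 (fun i k t ht => ⟨L i (a i k) t, H.eo.mov i (a i k) t ht⟩)
    (fun i k => h4 i (a i k)) (fun i k => hS i (a i k)) (by norm_num) H.cut_sub h8
    fun i => h6 i i.2
  obtain ⟨z, z1, z2⟩ := ax_shift (H.ax fun _ k => k) (x₀ := ⟨(), x₀, ψ₀⟩) (x₁ := ⟨(), x₁, χ₁⟩)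
    (H.sol H.g S f R trivial).1 ⟨e1, w, 1, e2, e3, e4⟩ (y := fun k => (x k, χ k)) e5
  refine ⟨fun k => (z k).1, fun k => (z k).2, z1, ?_⟩
  filter_upwards [hy, h3, e6] with k b1 b2 ⟨b3, b4⟩
  exact ⟨H.rep_eqv b1 ⟨b3 ▸ b2.1, b3 ▸ b4⟩ (z2 k), ((z2 k).1.trans b3).symm ▸ b2.2⟩

section mdl
variable {Sl : (Wi →₀ ℝ) → J.Obc c → Prop} {Gd : ∀ (b : Bp J c) δ, EC b p U δ → Prop}

namespace Hyp
variable (H : Hyp σ Sl Gd Adm)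
include H

theorem cg (k : Gd b δ E) : CG σ E Adm :=
  have a := H.gd _ _ _ k
  ⟨⟨H.toPG, a.1, a.2.1, a.2.2.1⟩, a.2.2.2⟩

/-- **the model**: all good charts -/
@[reducible] def mdl : Mo Wi (J.Obc c) where
  Ic := {i : Σ (b : Bp J c) (δ : ℝ), EC b p U δ // Gd i.1 i.2.1 i.2.2}
  Pb i := (H.cg i.2).Q
  rep i y x := i.1.2.2.RepC y x.2.1 x.2.2 ∧ Mt i.1.2.2 y x.2.1.t

variable (L : ∀ b δ E, Gd b δ E → LmC E)
include L

theorem seq (k : Gd b δ E) {α : Type} {𝒰 : Ultrafilter α} {q : α → Wi →₀ ℝ} {y : α → J.Obc c}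
    {q₀ : Wi →₀ ℝ} {y₀ : J.Obc c} {x₀ : Pnt E.o r} {ψ₀ : E.K} (ha : Adm q₀)
    (hq : St.Cv (𝒰 : Filter α) q q₀) (hy : ∀ᶠ k in (𝒰 : Filter α), Adm (q k) ∧ Sl (q k) (y k))
    (S : Sl q₀ y₀) (s : StrOn p 𝒰 y y₀) (R : E.RepC y₀ x₀ ψ₀) (m : Mt E y₀ x₀.t) :
    ∃ (x : α → Pnt E.o r) (ψ : α → E.K),
      Tendsto (fun k => (((x k).pt 8, ψ k) : E.C)) 𝒰 (𝓝 (x₀.pt 8, ψ₀)) ∧
      ∀ᶠ k in (𝒰 : Filter α), E.RepC (y k) (x k) (ψ k) ∧ Mt E (y k) (x k).t :=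
  (H.cg k).near (L _ _ _ k) (hy.mono fun _ a => (H.sol _ _ a.1 a.2).1) (H.sol _ _ ha S).1
    (H.sol _ _ ha S).2 s R (H.tl _ _ _ k _ ha _ _ _ _ _ _ _ hq hy S s R m) (H.st _ _ _ k _ _ _ ha S m)

theorem nrG (k : Gd b δ E) {y : J.Obc c} {x : Pnt E.o r} {ψ : E.K} (ha : Adm q) (S : Sl q y)
    (R : E.RepC y x ψ) (m : Mt E y x.t) : NrG Sl Adm E q y x ψ := fun _ _ _ _ hq hy s _ hV =>
  let ⟨_, _, a, a'⟩ := H.seq L k ha hq hy S s R m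
  ((a.eventually hV).and a').mono fun _ e => ⟨_, _, e.1, e.2.1⟩

/-- density from density without the cuts in the good charts at the parameter of `y` -/
theorem dens {y : J.Obc c} (ha : Adm q) (S : Sl q y) : ∃ i x, H.mdl.rep i y x ∧
    ((∀ i, IsPreconnected (J.nb i)) → CRich J c σ p → Job.In p y →
      (∀ (b : Bp J c) δ (E : EC b p U δ) x' ψ (k : Gd b δ E), b.s = y.s → E.RepC y x' ψ →
        NrG Sl Adm E q y x' ψ → ∃ S, (H.cg k).g.Q.Onto q ⟨(), x'⟩ S) →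
      ∃ S, (H.mdl.Pb i).Onto q x S) :=
  let ⟨b, δ, E, x, ψ, h1, h2, h3, h4⟩ := H.ex q y ha S
  ⟨⟨⟨b, δ, E⟩, h2⟩, ⟨(), x, ψ⟩, ⟨h3, h4⟩, fun hn hR hI k => (H.cg h2).onto _ (H.sol _ _ ha S).1
    (H.sol _ _ ha S).2 h3 trivial h1 hR hI hn (k _ _ _ _ _ h2 h1 h3 (H.nrG L h2 ha S h3 h4))⟩

/-- **the model of a part** -/
theorem out : Out σ Sl Gd Adm H.mdl where
  ax i _ k := (H.cg i.2).ax k
  sol i _ x R := ⟨_, _, i.1.2.2, x.2.1, x.2.2, i.2, R.1, R.2, fun _ ha S =>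
    ⟨(H.cg i.2).sol _ (H.sol _ _ ha S).1 (H.sol _ _ ha S).2 R.1 trivial,
      H.nrG L i.2 ha S R.1 R.2, (H.cg i.2).reg_iff _ _ _⟩⟩
  dens _ _ ha S := (H.dens L ha S).imp fun _ => .imp fun _ a => ⟨a.1, fun hn hR hI k =>
    a.2 hn hR hI fun _ _ _ _ _ g hb R n => k.elim ((H.cg g).onto_T _ (H.sol _ _ ha S).1
      (H.sol _ _ ha S).2 R trivial hb hR hI ha) fun k => ⟨_, (H.cg g).onto_F _ (k _ _ _ _ _ g R n)⟩⟩
  near _ ha _ _ _ _ _ hq hy S s i x₀ R :=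
    let ⟨x, ψ, a, a'⟩ := H.seq L i.2 ha hq hy S s R.1 R.2
    rNear_of (x₀ := x₀) (fun k => (x k, ψ k)) a a'

end Hyp
end mdl

end Crest.Agent.X212.Pte3
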