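import Crest.Agent.X212.Pte3.Out
import Crest.Agent.X212.Rf65.Pt
import Crest.Agent.X212.Pnt66.Ex
import Crest.Agent.X212.Mon62.PS
import Crest.Agent.X212.Spl54.Fr
import Crest.Agent.X212.Num57.Ixc
import Crest.Agent.X212.Hp13.Dnp

/-! Row 212, PART-E: models of the parts with walls of positive scalar curvature. -/

set_option autoImplicit false
set_option linter.unusedSectionVars false
noncomputable section
open scoped Manifold ContDiff Topology InnerProductSpace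
open MeasureTheory Set Function Filter

namespace Crest.Agent.X212.Pte3
open An M Nd18 Mod61 Nk89 Cht98 Rf65
open An.Job (SolOn StrOn)

variable {Wi : Type} {X : Mf 4} {A κ lam : Type} [Fintype A] [Fintype κ] [Fintype lam]
  [DecidableEq lam] {M : Mark X A κ} {W : World M} {N : ML M lam} {Λ : Lns W N}
  {A' h : Type} [Fintype A'] [DecidableEq A'] [Fintype h] {r n : ℕ}
  {J : Job Wi Λ A' h r n} {c : M.Cl} {σ : Cel A'} {p : Prt A A' h} {U : Type} [Fintype U]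
  {δ δ₀ : ℝ} {b : Bp J c} {E : EC b p U δ} {μ : Ed c → Option U}

theorem GP.lmC (g : GP δ₀ σ μ b δ E) : LmC E := fun i hi t => by
  cases e : E.μ i with
  | none =>
    rw [EC.lim, EC.lm, e, Option.elim_none, zero_smul, Rd78.bh_zero]
    exact (g.bs i hi).adm
  | some u => exact Pnt66.adm_mv (g.bs i hi).adm (g.ok.har i hi (by simp [e])).2.1.toFo _

theorem PL.and {P Q : Cel A' → Prt A A' h → ∀ (U : Type) [Fintype U], (Ed c → Option U) → ℝ → Prop}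
    (a : PL J c P) (a' : PL J c Q) : PL J c fun σ p U _ μ δ => P σ p U μ δ ∧ Q σ p U μ δ :=
  fun h1 h2 => let ⟨d, k, e⟩ := a h1 h2; let ⟨d', k', e'⟩ := a' h1 h2
    ⟨min d d', lt_min k k', fun _ hδ _ _ _ _ _ H => ⟨e _ ⟨hδ.1, hδ.2.trans (min_le_left _ _)⟩ _ _ _ _ H,
      e' _ ⟨hδ.1, hδ.2.trans (min_le_right _ _)⟩ _ _ _ _ H⟩⟩

/-- **LEAF PART from its leaves** -/
theorem prt0' (hS : SmP J c) (hI : IxP J c) (hD : DecP J c) (hE : ExP J c) (hT : TlP J c)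
    (hB : StP J c) : Prt0 J c := fun h1 h2 hn => by
  obtain ⟨δ₁, k, e⟩ := (hS.and (hI.and (hD.and (hE.and (hT.and hB))))) h1 h2
  refine ⟨δ₁, k, fun δ hδ σ p U _ μ H => ?_⟩
  obtain ⟨e1, e2, e3, e4, e5, e6⟩ := e δ hδ σ p U μ H
  have G : Hyp σ (SolE p μ σ) (fun b δ' E => GP (J := J) (p := p) δ σ μ b δ' E ∧ δ' = δ)
      fun _ => True :=
    ⟨⟨H.ok, H.mem, H.pok⟩, fun _ _ _ S => ⟨S.toSolOn, S.fr⟩, fun _ _ _ g => ⟨g.1.ok, g.1.ov,
      e1 _ _ _ g.1, e2 _ _ _ g.1 (e1 _ _ _ g.1)⟩, e4, fun _ _ _ g => e5 _ _ _ g.1,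
      fun _ _ _ g => e6 _ _ _ g.1⟩
  have L := fun (b : Bp J c) δ' (E : EC b p U δ') (g : GP δ σ μ b δ' E ∧ δ' = δ) => g.1.lmC
  have O := G.out L
  have gd : ∀ {b : Bp J c} {E : EC b p U δ} {q y x ψ}, GP δ σ μ b δ E → SolE p μ σ q y →
      E.RepC y x ψ → NrG (SolE p μ σ) (fun _ => True) E q y x ψ → E.Gd σ μ q y x ψ :=
    fun g S R m => ⟨⟨g.ok, g.hμ, g.ov, g.z, g.le, g.mt, (e3 _ _ S.toSolOn).1, R⟩, e1 _ _ _ g,
      fun α 𝒰 q' y' a a' => m α 𝒰 q' y' a (a'.mono fun _ k => ⟨trivial, k⟩)⟩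
  refine ⟨G.mdl, fun i _ => O.ax i _ fun _ _ => trivial, fun i y x R => ?_, fun q y S => ?_,
    fun q₀ α 𝒰 q y y₀ a a' => O.near q₀ trivial α 𝒰 q y y₀ a (a'.mono fun _ k => ⟨trivial, k⟩)⟩
  · obtain ⟨b, _, E, x', ψ, ⟨g, rfl⟩, R', -, k⟩ := O.sol i y x R
    exact ⟨b, E, x', ψ, fun q S => let a := k q trivial S; ⟨a.1, gd g S R' a.2.1, a.2.2⟩⟩
  · refine (G.dens L trivial S).imp fun _ => .imp fun _ a => ⟨a.1, fun hR hI k => a.2 hn hR hI ?_⟩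
    rintro b _ E x ψ ⟨g, rfl⟩ hb R m
    exact CS.onto_P _ _ S.toSolOn S.fr R trivial hb hR hI trivial fun π hπ =>
      (k π hπ).imp_right fun a => ⟨a.1, a.2 _ _ _ _ (gd g S R m)⟩

/-- with the proved leaves -/
theorem prt0 (hD : DecP J c) (hT : TlP J c) (hB : StP J c) : Prt0 J c :=
  prt0' (Mon62.smP J c) (Rz57.ixP (Spl54.frP J c)) hD (Pnt66.exP hD) hT hB

end Crest.Agent.X212.Pte3
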