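import Crest.Agent.X212.Pte3.Tl2
import Crest.Agent.X212.Tl47.Lj
import Crest.Agent.X212.Nbh31.Main
import Crest.Agent.X212.St29.Id
import Crest.Agent.X212.Wl34.Wl

/-! Row 212, PT-TLP: uniform tails of solutions on a part with ends of positive scalar curvature. -/

set_option autoImplicit false
set_option linter.unusedSectionVars false
noncomputable section
open scoped Manifold ContDiff Topology InnerProductSpace
open MeasureTheory Set Function Filter

namespace Crest.Agent.X212.Pte3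
open An M Nd18 Rdc90 Nk89 Cht98 Rf65
open An.Job (conn_xs)
open Tl47 (DR)

variable {Wi : Type} {X : Mf 4} {A κ lam : Type} [Fintype A] [Fintype κ] [Fintype lam]
  [DecidableEq lam] {M : Mark X A κ} {W : World M} {N : ML M lam} {Λ : Lns W N}
  {A' h : Type} [Fintype A'] [DecidableEq A'] [Fintype h] {r n : ℕ}
  {J : Job Wi Λ A' h r n} {c : M.Cl} {p : Prt A A' h} {U : Type} [Fintype U] {δ : ℝ} {b : Bp J c}

/-- the direction in which the limit moves -/
def dη (E : EC b p U δ) (i : Ed c) : κ → (J.xs i.1).Y.M → (E.β i).m.A :=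
  (E.μ i).elim 0 fun _ => E.η i

theorem lim_dη (E : EC b p U δ) (i : Ed c) (t : Tq p U) :
    E.lim i t = bh (E.β i) (E.lm i t • dη E i) 0 := by
  rw [EC.lim, EC.lm, dη]
  cases E.μ i <;> simp

theorem har_dη {E : EC b p U δ} (g : E.OK) {i : Ed c} (hi : i ∈ EdP c p.P) :
    Har (J.xs i.1).D (E.β i) (dη E i) := by
  rw [dη]
  cases e : E.μ i
  exacts [har_zero, (g.har i hi (by simp [e])).2.1]

theorem en_sg (E : EC b p U δ) (i : Ed c) : (en E i).sg = -pm i.2 := by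
  obtain ⟨_, _ | _⟩ := i <;> simp [End.sg, pm]

variable (J c) in
/-- **P-TAIL** -/
theorem tlP : TlP J c := fun hJ hP => by
  have cn := conn_xs J
  obtain ⟨d, h0, hd⟩ : ∃ d, (∀ a : cylW c, ∀ β, Bs (J.xs a).D β → DR (J.xs a).D β d) ∧ 0 < d :=
    ((eventually_all.2 fun a : cylW c =>
      let ⟨_, k⟩ := hP.py a a.2
      let ⟨_, k1, k2⟩ := Tl47.deceU k
      mem_of_superset (Ioc_mem_nhdsGT k1) fun _ h β b => (k2 β b).mono h.2).and
      self_mem_nhdsWithin).exists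
  refine ⟨d / 2, half_pos hd,
    fun δ₀ h σ p U _ μ H b δ E g q₀ _ α 𝒰 q y y₀ x₀ ψ₀ ⟨S, cv, _⟩ hy S₀ st R M₀ => ?_⟩
  obtain rfl := g.hμ
  replace hy := hy.mono fun _ k => k.2
  choose m hm using fun a : cylW c => hP.py a a.2
  have wl := fun a : cylW c =>
    Wl34.wl (J.xs a).D (J.xs a).N (m a) (hJ.xs a).1.yd (hP.nil a a.2).1 (hm a)
  obtain ⟨C, hC, hτ⟩ := τ_unif hJ hP H.mem g.ov (by classical exact S ∪ q₀.support)
  choose T ψ c₀ hT hψ hE using fun (i : Ed c) (hi : i ∈ EdP c p.P) =>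
    endD hJ H.mem H.pok i.1.2 hi (hy.mono fun _ k => k.toSolOn) S₀.toSolOn st (wl i.1).1 hC
      (hy.mono fun k S _ z _ hz => hτ _ S.ov _ (fun w hw => by
        by_contra e
        simp only [Finset.mem_union, not_or, Finsupp.notMem_support_iff] at e
        exact Finsupp.mem_support_iff.1 hw ((cv k w e.1).trans e.2)) _ z hz)
  have bl : ∀ i ∈ EdP c p.P, ∀ t, Bs (J.xs i.1).D (E.lim i t) := fun i hi t =>
    lim_dη E i t ▸ bs_har (hm i.1) (g.bs i hi) (Mon62.har_smul (har_dη g.ok hi) _)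
  have ed : ∀ {i u}, E.μ i = some u → i ∈ EdP c p.P := fun e =>
    by_contra fun k => by simp [H.mu.off _ k] at e
  choose e he f hf hf' using fun u => (by
    obtain ⟨i, e⟩ := H.mu.sur u
    have k := g.ok.har i (ed e) (by simp [e])
    have k' := M₀ i (ed e)
    rw [EC.lim, EC.lm, e] at k'
    exact ⟨i, e, mov_lim (pm_sg i.2) (Nbh31.nbH _) (hm i.1) (fun β k => ((wl i.1).2.1 β k).1)
      (wl i.1).2.2.1 (hE i (ed e)).hc k.1 (St29.Id.idM _) k.2.1 k.2.2 (hE i (ed e)).b0 k'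
      (S₀.mv i (by simp [e])) (hE i (ed e)).hn⟩ : ∃ i, E.μ i = some u ∧ ∃ f : α → ℝ,
        Tendsto f 𝒰 (𝓝 (x₀.t.2 u)) ∧ ∀ᶠ k in (𝒰 : Filter α),
          (J.xs i.1).D.Eqv ((y k).β i.1 i.2) (bh (E.β i) (f k • E.η i) 0))
  let t : α → Tq p U := fun k => (fun a => (y k).s a, fun u => f u k)
  have ht : Tendsto t 𝒰 (𝓝 x₀.t) := .prodMk_nhds
    (tendsto_pi_nhds.2 fun a => R.s a ▸ tendsto_pi_nhds.1 st.s a) (tendsto_pi_nhds.2 hf)
  have mt : ∀ i ∈ EdP c p.P, ∀ᶠ k in (𝒰 : Filter α),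
      (J.xs i.1).D.Eqv ((y k).β i.1 i.2) (E.lim i (t k)) := fun i hi => by
    cases e' : E.μ i with
    | none =>
      have : ∀ t', E.lim i t' = E.lim i x₀.t := fun t' => by simp only [EC.lim, EC.lm, e']; rfl
      simp only [this]
      exact fix_lim (pm_sg i.2) (Nbh31.nbH _) (hm i.1) (fun β k => ((wl i.1).2.1 β k).1)
        (wl i.1).2.2.1 (hE i hi).hc (bl i hi _) (St29.Id.idF _)
        ((hE i hi).hn.eqv (hE i hi).b0 (bl i hi _) (M₀ i hi)) (hy.mono fun _ S => S.fx i hi e')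
    | some u =>
      have k : ∀ᶠ k in (𝒰 : Filter α), (J.xs (e u).1).D.Eqv ((y k).β (e u).1 (e u).2)
          (E.lim (e u) (t k)) := (hf' u).mono fun k a => by rwa [EC.lim, EC.lm, he]
      have k0 := he u
      have k1 := H.mu.inj i (e u) (e'.trans k0.symm) (by simp [e'])
      generalize e u = j at k k0 k1
      obtain ⟨a, s⟩ := i
      obtain ⟨_, s'⟩ := j
      obtain rfl : a = _ := k1
      filter_upwards [k, hy, (hE _ hi).hc, (hE _ (ed k0)).hc] with k a1 S ⟨_, a2, _⟩ ⟨_, a3, _⟩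
      have a4 := bl _ hi (t k)
      have a5 := bl _ (ed k0) (t k)
      cases s <;> cases s'
      · exact a1
      · have z := e'.trans k0.symm
        exact eqv_trans a2 a5 a4 (eqv_trans a2 a3 a5 (S.mt a z (by simp [e'])) a1)
          (Pnt66.eqv_symm a2.ok a4.adm a5.adm (g.mt a z (by simp [e']) _))
      · have z := k0.trans e'.symm
        exact eqv_trans a2 a5 a4 (eqv_trans a2 a3 a5 (Pnt66.eqv_symm a2.ok a3.adm a2.adm
          (S.mt a z (by simp [k0]))) a1) (g.mt a z (by simp [k0]) _)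
      · exact a1
  have tl : ∀ i ∈ EdP c p.P, ∃ (R : ℝ) (v : ∀ k, (J.xs i.1).Y.M × ℝ → CL (y k).x.m.V (E.β i).m.V),
      (∀ᶠ k in (𝒰 : Filter α), ∀ j, ∃ C, (en E i).EB (y k).x (E.lim i (t k)) (v k) 1 d R j C) ∧
      ∀ j, ∃ C, ∀ᶠ k in (𝒰 : Filter α), (en E i).EB (y k).x (E.lim i (t k)) (v k) 1 d R j C := by
    intro i hi
    obtain ⟨ζ₀, l0⟩ := (hE i hi).l0
    obtain ⟨u, ζ, cz⟩ := (hE i hi).cz
    obtain ⟨R, hR, v, h1, h2⟩ := endY (f := fun k => E.lm i (t k)) (t₀ := E.lm i x₀.t) (pm_sg i.2) hd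
      (hm i.1) (h0 i.1) (g.bs i hi) (har_dη g.ok hi) (by
        simp only [EC.lm, ← Pnt66.lmL_apply]
        exact ((Pnt66.lmL p (E.μ i)).continuous.tendsto _).comp ht)
      (hE i hi).hc ((hE i hi).he.and ((mt i hi).mono fun k a => lim_dη E i _ ▸ a)) (hE i hi).b0
      (lim_dη E i _ ▸ M₀ i hi) (hE i hi).hn (hE i hi).a0 l0 cz
    have k : ∀ᶠ k in (𝒰 : Filter α), ∀ j C, (∀ s, R ≤ s → (J.xs i.1).D.Cls (pb (ψ i hi k) (y k).x)
        (bh (E.β i) (E.lm i (t k) • dη E i) 0) (v k) 1 (Ioo (-pm i.2 * s - 1) (-pm i.2 * s + 1)) j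
          (C * Real.exp (-d * s))) → (en E i).EB (y k).x (E.lim i (t k)) (v k) 1 d R j C := by
      filter_upwards [hψ i hi] with k ⟨ha, e⟩ j C a s hs
      have a := a s hs
      rw [e] at a
      have e' : E.lm i (t k) • E.η i = E.lm i (t k) • dη E i := by
        rw [EC.lm, dη]; cases E.μ i <;> simp
      rw [← e', ← en_sg E] at a
      refine (hJ.end_eq ha ⟨i.1.2.2, b.br, b.O, i.1.2.1⟩).cls (fun x hx => (J_end hJ ha).ge ?_) a
      show 0 < -pm i.2 * x
      rw [en_sg] at hx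
      rcases pm_sg i.2 with e | e <;> rw [e] at hx ⊢ <;> linarith [hx.1, hx.2, hT i hi]
    exact ⟨R, v, (h1.and k).mono fun _ a j => (a.1 j).imp (a.2 j),
      fun j => (h2 j).imp fun C a => (a.and k).mono fun _ a => a.2 j C a.1⟩
  choose! R v hv using tl
  obtain ⟨R', hR⟩ := (finite_range R).bddAbove
  refine ⟨t, R', d, fun _ => 1, fun k i => v i k, ht, (g.le.trans h.2).trans_lt (half_lt_self hd),
    ((eventually_all_finite (toFinite _)).2 mt).mono fun k a => ⟨fun _ => rfl, a⟩, fun i hi =>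
    ⟨(hv i hi).1.mono fun k a j => (a j).imp fun C a s hs => a s ((hR ⟨i, rfl⟩).trans hs),
      fun j => ((hv i hi).2 j).imp fun C a => a.mono fun k a s hs => a s ((hR ⟨i, rfl⟩).trans hs)⟩⟩

end Crest.Agent.X212.Pte3
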