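import Crest.Agent.X212.Pte3.RdA
import Crest.Agent.X212.Cqn41.Nr0
import Crest.Agent.X212.Cqn41.Pd2
import Crest.Agent.X212.Nt66.Ln

/-! Row 212, NT-R, **LEAF RD**: the linear terms on a spinor in the kernel. -/

set_option autoImplicit false
set_option linter.unusedSectionVars false
noncomputable section
open scoped Manifold ContDiff Topology InnerProductSpace
open MeasureTheory Set Function Filter

namespace Crest.Agent.X212.Pte3.Rd
open An M Nd18 Sob92 Mod61 Wrd81 Rf65 Nr41 Mp86.St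
open An.Job (Sol SolOn)
open Finsupp (single)

theorem der_aff {Y : Type} [NormedAddCommGroup Y] [NormedSpace ℝ Y] {f g : ℝ → Y} {a b v : Y}
    (hf : HasDerivAt f a 0) (hg : HasDerivAt g b 0) (e : ∀ s, g s = f s + s • v) : b = a + v :=
  hg.unique (by
    simpa only [funext e, one_smul] using hf.fun_add ((hasDerivAt_id' (0 : ℝ)).smul_const v))

section job
variable {Wi : Type} {X : Mf 4} {A κ lam : Type} [Fintype A] [Fintype κ] [Fintype lam]
  [DecidableEq lam] {M : Mark X A κ} {W : World M} {N : ML M lam} {Λ : Lns W N}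
  {A' h : Type} [Fintype A'] [DecidableEq A'] [Fintype h] {r n : ℕ}
  {J : Job Wi Λ A' h r n} {c : M.Cl} {σ : Cel A'} {s : A' → ℝ} {w : Wi} {q : Wi →₀ ℝ}

theorem sum_one {V : Type} [AddCommGroup V] (t : ℝ) {g : Wi → ℝ → V} (a : ∀ w, g w 0 = 0)
    (b : ∀ w a b, g w (a + b) = g w a + g w b) : (q + single w t).sum g = q.sum g + g w t := by
  rw [Finsupp.sum_add_index' a b, Finsupp.sum_single_index (a w)]

/-- one more term -/
theorem τ_one (hw : J.Nn w s) (t : ℝ) (x : Cfg (W.Z c).M (Option κ) (lam ⊕ lam) r) :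
    (∀ z, (J.τ c (q + single w t) s).D x z = (J.τ c q s).D x z +
      (t * J.co w s) • x.tD (J.B c) (J.G c s).F ((J.tp c).tm (J.tw w)) z) ∧
    (∀ z, (J.τ c (q + single w t) s).C x z = (J.τ c q s).C x z +
      (t * J.co w s) • x.tC (J.B c) (J.G c s).F ((J.tp c).tm (J.tw w)) z) ∧
    ∀ i, (J.τ c (q + single w t) s).S x i = (J.τ c q s).S x i +
      (t * J.co w s) • x.tS (J.G c s).F ((J.tp c).tm (J.tw w)) i := by
  obtain ⟨h1, h2, h3⟩ := τw_eq (c := c) hw x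
  refine ⟨fun z => ?_, fun z => ?_, fun z => ?_⟩ <;>
    refine (congrArg (_ + ·) (sum_one t (fun _ => by simp)
      fun _ _ _ => by simp [add_smul, add_mul])).trans ((add_assoc _ _ _).symm.trans ?_)
  · rw [h1, mul_smul]; rfl
  · rw [h2, mul_smul]; rfl
  · rw [h3, mul_smul, Complex.real_smul (x := t)]; rfl

theorem σc_one {i : h} (hc : J.cc i w s = 0) (t : ℝ) (x : Cfg (W.Z c).M (Option κ) (lam ⊕ lam) r) :
    J.σc c (q + single w t) s i x = J.σc c q s i x :=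
  (sum_one t (fun _ => by rw [zero_mul, zero_smul]) fun _ _ _ => by rw [add_mul, add_smul]).trans
    (by rw [hc, mul_zero, zero_smul, add_zero]; rfl)

/-- a term that vanishes at `y` keeps `y` -/
theorem kp (pj : PJ J c) {y : J.Obc c} (hw : J.Nn w y.s) (hc : ∀ i, J.cc i w y.s = 0)
    (hD : y.x.tD (J.B c) (J.G c y.s).F ((J.tp c).tm (J.tw w)) = 0)
    (hC : y.x.tC (J.B c) (J.G c y.s).F ((J.tp c).tm (J.tw w)) = 0)
    (hS : y.x.tS (J.G c y.s).F ((J.tp c).tm (J.tw w)) = 0) : single w 1 ∈ Kp σ y := fun q H t => by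
  obtain ⟨a1, a2, a3⟩ := τ_one (q := q) hw t y.x
  simp only [hD, hC, hS, Pi.zero_apply, smul_zero, add_zero] at a1 a2 a3
  rw [Finsupp.smul_single_one]
  refine ⟨H.cell, H.inf, ⟨H.sol.toAdm, fun z => (congrArg (_ - ·) (a1 z)).trans (H.sol.D z),
    fun z => (congrArg (_ - ·) (a2 z)).trans (H.sol.C z), fun i => (a3 i).trans (H.sol.S i)⟩, H.sub,
    fun j hj => ⟨(H.cut j hj).1, (H.cut j hj).2.trans ?_⟩, H.drop, H.lim, H.crit, fun a ha => ?_,
    H.int, H.lev⟩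
  · rw [σc_one (hc j)]
  · have : ∀ q, (J.xs a).q q = 0 := fun q => by simp [Xs.q, (pj.nil a ha).2]
    rw [this, ← this q]
    exact H.brk a ha

variable {p : Prt A A' h} {U : Type} [Fintype U] {δ : ℝ} {b : Bp J c} {E : EC b p U δ}

theorem der_Y {f g : ℝ → E.Y} {a b v : E.Y} (hf : HasDerivAt f a 0) (hg : HasDerivAt g b 0)
    (e : ∀ s, g s = f s + s • v) : b = a + v := der_aff hf hg e

variable (E) in
/-- the Dirac row -/
def ιD : E.o.Y n (min r 1) 8 →L[ℝ] E.Y := .inl ℝ _ _ ∘L .inl ℝ _ _ ∘L .fst ℝ _ _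

/-- the Dirac rows that are hit -/
abbrev ND (L : E.C →L[ℝ] E.Y) : Submodule ℝ (E.o.Y n (min r 1) 8) :=
  (LinearMap.range L.toLinearMap).comap (ιD E).toLinearMap

variable (H : CS σ E) {f g : E.C → E.Y} (hf : E.Map q f) {y : J.Obc c} (x : Pnt E.o r) (ψ : E.K)
include H hf

/-- the map after adding a term of the Dirac row -/
theorem map_one (hg : E.Map (q + single w 1) g) (hw : J.Nn w (b.θ p U x.t))
    (hc : ∀ i, J.cc i w (b.θ p U x.t) = 0)
    (hC : x.cfg.tC (J.B c) (J.G c (b.θ p U x.t)).F ((J.tp c).tm (J.tw w)) = 0)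
    (hS : x.cfg.tS (J.G c (b.θ p U x.t)).F ((J.tp c).tm (J.tw w)) = 0) {e : E.o.Y n (min r 1) 8}
    (he : (b.F p U δ).F0.val 8 E.o.Pm e.1 = (b.F p U δ).Om'.indicator (-J.co w (b.θ p U x.t) •
      x.cfg.tD (J.B c) (J.G c (b.θ p U x.t)).F ((J.tp c).tm (J.tw w)))) :
    g (x.pt 8, ψ) = f (x.pt 8, ψ) + ιD E e := by
  obtain ⟨a1, a2, a3⟩ := τ_one (q := q) hw 1 x.cfg
  simp only [hC, hS, Pi.zero_apply, smul_zero, add_zero, one_mul] at a1 a2 a3
  obtain ⟨b1, b2, b3, b4⟩ := tot_ev (b := b) (U := U) (δ := δ) (t := x.t) (q := q) x.cfg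
  obtain ⟨c1, c2, c3, c4⟩ := tot_ev (b := b) (U := U) (δ := δ) (t := x.t) (q := q + single w 1) x.cfg
  obtain ⟨f1, f2, f3, f4⟩ := hf.e x ψ
  refine Prod.ext ((hg.e _ ψ).unique H.F (by norm_num) ⟨?_, ?_, ?_, ?_⟩) (Prod.ext
    (funext fun i => ?_) (funext fun i => ?_))
  · refine (val_add _ _).trans ((congrArg₂ (· + ·) f1 he).trans ((indicator_add' _ _ _).symm.trans
      (indicator_congr fun z _ => ?_)))
    refine (congrArg (fun a : E.o.m.V => a + _) (b1 z)).trans (Eq.trans ?_ (c1 z).symm)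
    rw [Cfg.eD, Cfg.eD, a1, neg_smul, ← sub_sub, sub_eq_add_neg (_ - _)]
    rfl
  · exact (congrArg _ (add_zero _)).trans (f2.trans (indicator_congr fun z _ =>
      (b2 z).trans ((congrArg (_ - ·) (a2 z).symm).trans (c2 z).symm)))
  · exact (add_zero _).trans (f3.trans (funext fun i =>
      (b3 i).trans ((congrArg _ (a3 i).symm).trans (c3 i).symm)))
  · exact (add_zero _).trans (f4.trans (b4.trans c4.symm))
  · refine (hg.row _ ψ i).trans (Eq.trans ?_ ((hf.row x ψ i).symm.trans (add_zero _).symm))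
    exact congrArg (· (ψ i)) (congrArg₂ HSub.hSub rfl (σc_one (hc i) 1 x.cfg))
  · exact (hg.nrm _ ψ i).trans ((hf.nrm x ψ i).symm.trans (add_zero _).symm)

variable {φ : (W.Z c).M → E.o.m.V} (hφ : φ ∈ Hs (b.F p U δ).F0.toPre E.o.Pp)

theorem der_lf : HasDerivAt (fun s => f ((lf x hφ s).pt 8, ψ))
    (Ld f x ψ ((0, ofV _ 9 _ φ, 0), 0)) 0 := by
  simpa only [lf_pt H.F x hφ (k := 8) (by norm_num), Prod.smul_mk, smul_zero, Prod.mk_add_mk,
    add_zero] using Nt66.der_line (X := E.C) (x := (x.pt 8, ψ)) (Nt66.open_C H.F) hf.sm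
      ⟨x.mem_U, trivial⟩ ((0, ofV _ 9 _ φ, 0), 0)

variable {x ψ} (St : Stk σ q y x ψ f) (h0 : Ld f x ψ ((0, ofV _ 9 _ φ, 0), 0) = 0)
include St h0

theorem av_at (hk : single w 1 ∈ Kp σ y) (hw : J.Nn w (b.θ p U x.t))
    (hc : ∀ i, J.cc i w (b.θ p U x.t) = 0) (c0 : J.co w (b.θ p U x.t) ≠ 0)
    (hD : ∀ s, (lf x hφ s).cfg.tD (J.B c) (J.G c (b.θ p U x.t)).F ((J.tp c).tm (J.tw w)) =
      s • (lf x hφ 1).cfg.tD (J.B c) (J.G c (b.θ p U x.t)).F ((J.tp c).tm (J.tw w)))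
    (hC : ∀ z : Cfg _ _ _ r, z.tC (J.B c) (J.G c (b.θ p U x.t)).F ((J.tp c).tm (J.tw w)) = 0 ∧
      z.tS (J.G c (b.θ p U x.t)).F ((J.tp c).tm (J.tw w)) = 0) :
    Av (ND (Ld f x ψ)) (lf x hφ 1) ((J.tp c).tm (J.tw w)) := fun e e1 _ _ => by
  obtain ⟨g, hg, hs⟩ := St.st _ hk
  have k : ∀ s : ℝ, g ((lf x hφ s).pt 8, ψ) =
      f ((lf x hφ s).pt 8, ψ) + s • ιD E (-J.co w (b.θ p U x.t) • e) := fun s => by
    rw [← map_smul]
    refine map_one H hf (lf x hφ s) ψ hg hw hc (hC _).1 (hC _).2 ?_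
    rw [Prod.smul_fst, Prod.smul_fst, val_smul, val_smul, e1, smul_smul, mul_comm, ind_smul]
    exact congrArg _ ((mul_smul _ _ _).trans (congrArg _ (hD s).symm))
  have := (der_Y (der_lf H hf x ψ hφ) (der_lf H hg x ψ hφ) k).trans
    ((congrArg (· + _) h0).trans (zero_add _))
  exact ((ND (Ld f x ψ)).smul_mem_iff (neg_ne_zero.2 c0)).1 (this ▸ hs _ h0 :)

end job

section scene
open G75 Ins26 Jb7 Qab60
variable {κ lam : Type} [Fintype κ] [Fintype lam] [DecidableEq lam] {Lm : LM κ lam}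
  {S : Scene Lm} {D : S.Dat} {i : S.L} {Wi : Type} {r n : ℕ}
  {J : Job Wi (D.Λ i) (S.A ⊕ Unit) S.ls r n} {c : S.M.Cl} {δ : ℝ} {σ : Cel (S.A ⊕ Unit)} {R : S.A}
  {b : Bp J c} {E : ER σ R b δ} {q : Wi →₀ ℝ} {y : J.Obc c} {x : Pnt E.o r} {ψ : E.K}
  {ξ : (D.W.Z c).M → E.o.m.A} (C : Cr q y x ψ ξ)
include C

theorem pcI : S.M.sys.Piece c.1 (hp R false) := C.cs.pok.pc _ (.inr rfl)

/-- all field terms inside -/
theorem richI : J.RichT y.s (hp R false) := by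
  obtain ⟨_, _, _, _, _, _, jr⟩ := C.jr
  obtain ⟨_, _, rw⟩ := jr.ri.rw
  exact ((jr.gx.rich σ C.an.mem _ C.sol.cell c C.sol.inf nofun).2 _ (pcI C)).1
    fun l hl e => rw.nl ((hp_some.1 e).1 ▸ hl)

theorem img_eq : oI D.W c R ⊆ D.W.φ c '' S.M.sys.U (hp R false) := fun z hz =>
  pc_tgt D.W.toCaps (pcI C) ⟨by
    rw [D.W.tgt]; exact fun a ha k => (C.np (mem_singleton_iff.1 (C.one.le ha) ▸ k)).elim, hz⟩

theorem img_sub : D.W.φ c '' S.M.sys.U (hp R false) ⊆ oI D.W c R := fun _ hz => .inl hz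

/-- no spinor inside -/
theorem Φ_y (z : (D.W.Z c).M) (hz : z ∈ oI D.W c R) : y.x.Φ z = 0 := by
  obtain ⟨u, ζ, e, -⟩ := C.ch.rep.e
  have k : z ∈ D.W.un c {hp R true, hp R false} := mem_biUnion (.inr rfl) hz
  have h0 : cs E.o.m.J ζ (u z (y.x.Φ z)) = 0 := (e.Φ z k).symm.trans (C.ins.ab.z z hz)
  have h1 := (Eqv71.cs_mul E.o.ok.Jsq _ _ _).symm.trans (congrArg (cs E.o.m.J ζ⁻¹) h0)
  have h2 : u z (y.x.Φ z) = 0 := by simpa [cs] using h1
  rw [← Eqv71.p_Φ (Eqv71.ad0 C.sol.sol.toAdm) z, ← e.m.uu z k]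
  exact (congrArg (trn (u z)) h2).trans (map_zero _)

theorem z_ne : ∃ j, x.z j ≠ 0 := by
  obtain ⟨u, ζ, e, -⟩ := C.ch.rep.e
  have k : ‖x.z‖ = 1 := (Eqv71.ceq_norm_z e).trans (C.sol.sol.z.resolve_left C.an.r0)
  by_contra h
  rw [show x.z = 0 from by ext j; simpa using not_exists.1 h j, norm_zero] at k
  exact zero_ne_one k

/-- the terms of the Dirac row inside keep `y` -/
theorem kp_in {w : Wi} (t : TmIn S.X.I (S.M.sys.U (hp R false)) (J.tw w)) (hw : J.Nn w y.s)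
    (hc : ∀ i, J.cc i w y.s = 0)
    (hC : y.x.tC (J.B c) (J.G c y.s).F ((J.tp c).tm (J.tw w)) = 0)
    (hS : y.x.tS (J.G c y.s).F ((J.tp c).tm (J.tw w)) = 0) : single w 1 ∈ Kp σ y := by
  refine kp C.an.pj hw hc (funext fun z => ?_) hC hS
  by_cases hz : z ∈ oI D.W c R
  · exact Cqn41.Pd.tD_zo ⟨Cyl58.isClopen_pc _ (pcI C), Mp86.bumps_of_tame _
      (C.an.ok.tame C.an.mem C.sol.ov).choose_spec, Mp86.mc_W C.sol.sol.conn,
      Mp86.mc_adW C.sol.sol.conn, Φ_y C⟩ _ hz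
  · obtain ⟨K, -, k1, k2⟩ := ((inv_tp (J := J) (br_of C.an.ok C.an.mem C.sol.ov)
      (U_src D.W.toCaps (pcI C))).2.tm t).supp (ι := Option κ)
    exact (k2 _ _ _ z fun k => hz (img_sub C (k1 k))).1

theorem rchD_at {f : E.C → E.Y} (hf : E.Map q f) : RchD f C := fun St φ hφ φ0 off h0 e he => by
  have L := C.cs.Lk
  have hπ := pcI C
  have hK := Cyl58.isClopen_pc D.W.toCaps hπ
  have hO := isOpen_img D.W.toCaps hπ
  have nl := null_pc D.W.toCaps hπ (FW σ R b δ).F0.toPre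
  obtain ⟨j, hj⟩ := z_ne C
  have av : ∀ τ, TmIn S.X.I (S.M.sys.U (hp R false)) τ → Bas τ → τ.Zc → ((J.tp c).tm τ).Zc →
      (∀ s (z : Cfg _ _ _ r), z.tC (J.B c) (J.G c s).F ((J.tp c).tm τ) = 0 ∧
        z.tS (J.G c s).F ((J.tp c).tm τ) = 0) →
      Av (ND (Ld f x ψ)) (lf x hφ 1) ((J.tp c).tm τ) := fun τ t1 t2 t3 t4 t5 => by
    obtain ⟨w, rfl, w1, w2, w3⟩ := richI C τ t1 t2 t3
    exact av_at C.cs hf hφ St h0 (kp_in C t1 w3 w2 (t5 _ _).1 (t5 _ _).2) (C.θ ▸ w3) (C.θ ▸ w2)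
      (C.θ ▸ w1) (fun s => funext (lf_tD L.fam x hφ hK hO nl (img_sub C) C.ins.ab.z
        ((inv_tp (J := J) (br_of C.an.ok C.an.mem C.sol.ov) (U_src D.W.toCaps hπ)).2.tm t1) t4 s))
      (t5 _)
  have z : ∀ e : E.o.Y n (min r 1) 8, e.1 = 0 → e ∈ ND (Ld f x ψ) := fun e k =>
    ⟨0, (map_zero _).trans (by simp [ιD, k]; rfl)⟩
  have tr : ∀ {b ρ}, Val (ND (Ld f x ψ)) 0 b ρ := fun e k _ _ => z e
    (val_injective L.fam.sup (by norm_num) (k.trans ((indicator_zero' _).trans val_zero.symm)))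
  have ne : ∃ a ∈ D.W.pc c (hp R false), (lf x hφ 1).cfg.Φ a ≠ 0 := by_contra fun k =>
    φ0 (funext fun a => by
      by_cases ha : a ∈ oI D.W c R
      · have k1 : E.o.Φ0 a + (x.φ a + (1 : ℝ) • φ a) = 0 := by_contra fun k' => k ⟨a, ha, k'⟩
        have k2 : E.o.Φ0 a + x.φ a = 0 := C.ins.ab.z a ha
        rwa [← add_assoc, k2, zero_add, one_smul] at k1
      · exact off a ha)
  have dn := dn_F L.fam hK hO nl (pc_cmp _ hπ ne) (d := .z j) hj
    ((L.inv (lf x hφ 1) (.inr rfl)).rich rfl (d := .z j)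
      ⟨fun _ _ h1 h2 => av _ ⟨h2.cons h1, _, _, rfl⟩ trivial trivial trivial fun _ _ => ⟨rfl, rfl⟩,
        fun _ _ h1 h2 => av _ ⟨trivial, h1, h2⟩ trivial ⟨j, rfl⟩ ⟨j, rfl⟩ fun _ _ => ⟨rfl, rfl⟩,
        fun _ _ _ _ _ _ _ _ => tr, fun _ _ _ _ _ _ _ _ _ _ => tr⟩)
  have m : ((e.1.1, 0) : E.o.Y n (min r 1) 8) ∈ ND (Ld f x ψ) :=
    dn.lc_le L.fam (St.cl.preimage (ιD E).continuous) (by norm_num) (fun _ => z _ rfl)
      (fun ρ => ⟨(0, 0, 0, ρ), z _ rfl, ⟨zero_mem _, zero_mem _, trivial⟩, rfl⟩)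
      ⟨mem_HO L.fam (by norm_num) hK (subset_inter (img_eq C) subset_rfl) he.D, zero_mem _, trivial⟩
  have e2 : e.1.2.1 = 0 := val_injective L.fam.sup (by norm_num)
    ((funext fun a => he.C a (notMem_empty a)).trans val_zero.symm)
  have : ιD E (e.1.1, 0) = e := Prod.ext (Prod.ext rfl (Prod.ext e2.symm he.S.symm)) (Prod.ext
    (funext fun i => (he.T i (notMem_empty _)).1.symm) (funext fun i => (he.T i (notMem_empty _)).2.symm))
  exact this ▸ m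

omit C in
variable (Lm) in
/-- **LEAF RD** -/
theorem rchD : All Lm fun C f => RchD f C := fun _ _ _ _ _ _ _ _ _ _ =>
  ⟨1, one_pos, fun _ _ _ _ _ _ _ _ _ _ _ C _ hf => rchD_at C hf⟩

end scene

end Crest.Agent.X212.Pte3.Rd
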