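import Crest.Agent.X212.Rf65.Px
import Crest.Agent.X212.Wrd81.Loc
import Crest.Agent.X212.An.CutT
import Crest.Agent.X212.Map77.Fin

/-!
# Row 212, PART-E: models of parts with cylindrical ends, hypotheses and leaves

`Hyp` : what is needed of the solutions `Sl` and the good charts `Gd`.  `Out` : the model.
-/

set_option autoImplicit false
set_option linter.unusedSectionVars false
noncomputable section
open scoped Manifold ContDiff Topology InnerProductSpace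
open MeasureTheory Set Function Filter

namespace Crest.Agent.X212.Pte3
open An M Nd18 Mod61 Nk89 Cht98 Rf65
open An.Job (SolOn StrOn isClopen_un)
open Rdc90 (Bs)
open Map77 (Aff)

variable {Wi : Type} {X : Mf 4} {A κ lam : Type} [Fintype A] [Fintype κ] [Fintype lam]
  [DecidableEq lam] {M : Mark X A κ} {W : World M} {N : ML M lam} {Λ : Lns W N}
  {A' h : Type} [Fintype A'] [DecidableEq A'] [Fintype h] {r n : ℕ}
  {J : Job Wi Λ A' h r n} {c : M.Cl} {σ : Cel A'} {p : Prt A A' h} {U : Type} [Fintype U] {δ : ℝ}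

variable (J c σ p) in
/-- the standing hypotheses -/
structure PG : Prop where
  ok : J.OK
  mem : σ ∈ J.𝒦
  pok : J.POK σ c p

theorem sm_θ (b : Bp J c) : ContDiff ℝ ∞ (b.θ p U) := contDiff_pi.2 fun a => by
  unfold Bp.θ
  by_cases k : a ∈ p.V
  · simp only [dif_pos k]; fun_prop
  · simp only [dif_neg k]; exact contDiff_const

theorem un_sub (hp : J.POK σ c p) : W.un c p.P' ⊆ W.un c p.P := biUnion_subset_biUnion_left hp.sub

variable (U) in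
/-- the ends of the family of a part -/
def PG.ends (H : PG J c σ p) (b : Bp J c) (d0 : 0 < δ) (d1 : δ ≤ dl0) : Ends (b.F p U δ) δ :=
  jEnds H.ok b.br b.O (sm_θ b) (isClopen_un H.pok.pc)
    (isClopen_un fun π k => H.pok.pc π (H.pok.sub k)) (un_sub H.pok) d0 d1

variable (p U δ) in
/-- the cuts of a part -/
abbrev cu (b : Bp J c) : CTh (b.F p U δ) r Wi p.H :=
  CTh.ofT (b.F p U δ) (fun i : p.H => J.cut c i) (fun i w => (J.tp c).tc (J.tc i w))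
    fun i w t => J.cc i w (b.θ p U t)

section chart
variable {b : Bp J c} (E : EC b p U δ)

/-- the end `i` -/
abbrev en (_E : EC b p U δ) (i : Ed c) : End (b.F p U δ) := b.En p.P p.P' (b.θ p U) δ i

/-- the maps of a chart are smooth -/
structure SmC : Prop where
  aff : Aff E.o (Fs (b.F p U δ)) r n (min r 1) (b.e p U δ)
  sm : ∀ w, E.o.Sm (b.τ p U w)
  rc : ∀ i w, ∃ f, RepC E.o 8 ((cu p U δ b).σ i w) f

/-- the hypotheses of the Fredholm property (`Nk89.Ends.Fred` on the ends of the part) -/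
def FrC : Prop := ∀ q, ∀ t ∈ (b.F p U δ).Q, ∀ i ∈ EdP c p.P, ∀ k k0, ∃ eZ,
  CylOK (δ := δ) k k0 8 eZ ∧ (en E i).Loc E.o 8 δ E.R (EC.tot b p U δ q) t k k0 eZ

/-- the index is constant -/
def IxC (Adm : (Wi →₀ ℝ) → Prop) : Prop :=
  ∃ d, ∀ q (x : Pnt E.o r), Adm q → Idx 8 (EC.tot b p U δ q) x d

/-- the limits of `y` are those of the chart at `t` -/
def Mt (y : J.Obc c) (t : Tq p U) : Prop :=
  ∀ i ∈ EdP c p.P, (J.xs i.1).D.Eqv (y.β i.1 i.2) (E.lim i t)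

/-- the stabilisers of the limits at `t₀` fix all limits of the chart -/
def Stb (t₀ : Tq p U) : Prop := ∀ i ∈ EdP c p.P, ∀ s ζ,
  EqOn (J.xs i.1).D.B (J.xs i.1).D.Z univ (cy (E.lim i t₀)) (cy (E.lim i t₀)) s ζ → ∀ t,
  EqOn (J.xs i.1).D.B (J.xs i.1).D.Z univ (cy (E.lim i t)) (cy (E.lim i t)) s ζ

/-- uniform exponential decay to the limits of the chart, with one phase for all ends -/
def Tail {α : Type} (l : Filter α) (y : α → J.Obc c) (t₀ : Tq p U) : Prop :=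
  ∃ (t : α → Tq p U) (R d : ℝ) (ζ : α → Circle)
    (v : ∀ k (i : Ed c), (J.xs i.1).Y.M × ℝ → CL (y k).x.m.V (E.β i).m.V),
    Tendsto t l (𝓝 t₀) ∧ δ < d ∧
    (∀ᶠ k in l, (∀ a : p.V, (t k).1 a = (y k).s a) ∧ Mt E (y k) (t k)) ∧ ∀ i ∈ EdP c p.P,
      (∀ᶠ k in l, ∀ j, ∃ C, (en E i).EB (y k).x (E.lim i (t k)) (v k i) (ζ k) d R j C) ∧
      ∀ j, ∃ C, ∀ᶠ k in l, (en E i).EB (y k).x (E.lim i (t k)) (v k i) (ζ k) d R j C

end chart

/-- every piece has an end, a spinor, or an irreducible connection -/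
def Fre (p : Prt A A' h) (y : J.Obc c) : Prop :=
  ∀ π ∈ p.P, (∃ a ∈ cylW c, π a ≠ none) ∨ y.TF π ∨ π ∉ p.P' ∧ ¬y.TA π

variable (σ) (Sl : (Wi →₀ ℝ) → J.Obc c → Prop) (Gd : ∀ (b : Bp J c) δ, EC b p U δ → Prop)
  (Adm : (Wi →₀ ℝ) → Prop)

/-- charts exist -/
def ExH : Prop := ∀ q y, Adm q → Sl q y → ∃ (b : Bp J c) (δ : ℝ) (E : EC b p U δ)
  (x : Pnt E.o r) (ψ : E.K), b.s = y.s ∧ Gd b δ E ∧ E.RepC y x ψ ∧ Mt E y x.t

/-- tails -/
def TlH : Prop := ∀ b δ E, Gd b δ E → ∀ q₀, Adm q₀ → ∀ (α : Type) (𝒰 : Ultrafilter α)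
  (q : α → Wi →₀ ℝ) (y : α → J.Obc c) y₀ x₀ ψ₀, St.Cv (𝒰 : Filter α) q q₀ →
  (∀ᶠ k in (𝒰 : Filter α), Adm (q k) ∧ Sl (q k) (y k)) → Sl q₀ y₀ → StrOn p 𝒰 y y₀ →
  E.RepC y₀ x₀ ψ₀ → Mt E y₀ x₀.t → Tail E 𝒰 y x₀.t

/-- stabilisers -/
def StH : Prop := ∀ b δ E, Gd b δ E → ∀ q y t, Adm q → Sl q y → Mt E y t → Stb E t

/-- the hypotheses on the solutions `Sl` and the charts `Gd` -/
structure Hyp : Prop extends PG J c σ p where
  sol : ∀ q y, Adm q → Sl q y → SolOn p σ q y ∧ Fre p y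
  gd : ∀ b δ E, Gd b δ E → E.OK ∧ J.Ov σ c b.s ∧ SmC E ∧ IxC E Adm
  ex : ExH Sl Gd Adm
  tl : TlH Sl Gd Adm
  st : StH Sl Gd Adm

/-- solutions near `y` are represented near `(x, ψ)` -/
def NrG {b : Bp J c} (E : EC b p U δ) (q : Wi →₀ ℝ) (y : J.Obc c) (x : Pnt E.o r) (ψ : E.K) :
    Prop :=
  ∀ (α : Type) (𝒰 : Ultrafilter α) (q' : α → Wi →₀ ℝ) (y' : α → J.Obc c),
    St.Cv (𝒰 : Filter α) q' q → (∀ᶠ k in (𝒰 : Filter α), Adm (q' k) ∧ Sl (q' k) (y' k)) →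
    StrOn p 𝒰 y' y → ∀ V ∈ 𝓝 ((x.pt 8, ψ) : E.C), ∀ᶠ k in (𝒰 : Filter α),
      ∃ (x' : Pnt E.o r) (ψ' : E.K), (x'.pt 8, ψ') ∈ V ∧ E.RepC (y' k) x' ψ'

/-- the model -/
structure Out (D : Mo Wi (J.Obc c)) : Prop where
  ax : ∀ i (Adm' : (Wi →₀ ℝ) → Prop), (∀ q, Adm' q → Adm q) → (D.Pb i).Ax Adm'
  sol : ∀ i y x, D.rep i y x → ∃ (b : Bp J c) (δ : ℝ) (E : EC b p U δ) (x' : Pnt E.o r) (ψ : E.K),
    Gd b δ E ∧ E.RepC y x' ψ ∧ Mt E y x'.t ∧ ∀ q, Adm q → Sl q y → (D.Pb i).Sol q x ∧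
      NrG Sl Adm E q y x' ψ ∧ ((D.Pb i).Reg q x ↔ E.Reg q x' ψ)
  dens : ∀ q y, Adm q → Sl q y → ∃ i x, D.rep i y x ∧ ((∀ i, IsPreconnected (J.nb i)) →
    CRich J c σ p → Job.In p y →
    ((∀ s ∈ Job.cl σ, Sys.inf (J.Θ s).2 = c.1 → ∀ π ∈ p.P, J.RichT s π) ∨
      ∀ (b : Bp J c) δ (E : EC b p U δ) x' ψ, Gd b δ E → E.RepC y x' ψ →
        NrG Sl Adm E q y x' ψ → E.RegF q x') → ∃ S, (D.Pb i).Onto q x S)
  near : ∀ q₀, Adm q₀ → ∀ (α : Type) (𝒰 : Ultrafilter α) (q : α → Wi →₀ ℝ) (y : α → J.Obc c) y₀,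
    St.Cv (𝒰 : Filter α) q q₀ → (∀ᶠ k in (𝒰 : Filter α), Adm (q k) ∧ Sl (q k) (y k)) →
    Sl q₀ y₀ → StrOn p 𝒰 y y₀ → ∀ i x₀, D.rep i y₀ x₀ → RNear (D.rep i) 𝒰 y x₀

/-! ### walls of positive scalar curvature -/

variable {σ}

/-- the charts used for `Rf65.Part` -/
structure GP (δ₁ : ℝ) (σ : Cel A') (μ : Ed c → Option U) (b : Bp J c) (δ : ℝ) (E : EC b p U δ) :
    Prop where
  ok : E.OK
  hμ : E.μ = μ
  ov : J.Ov σ c b.s
  z : E.o.Φ0 = 0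
  le : δ ≤ δ₁
  mt : ∀ a : cylW c, μ (a, false) = μ (a, true) → μ (a, false) ≠ none → ∀ t,
    (J.xs a).D.Eqv (E.lim (a, false) t) (E.lim (a, true) t)
  bs : ∀ i ∈ EdP c p.P, Bs (J.xs i.1).D (E.β i)

variable (J c)

/-- a property of all parts with walls of positive scalar curvature, for small weights (ONE bound
for all parts) -/
def PL (P : Cel A' → Prt A A' h → ∀ (U : Type) [Fintype U], (Ed c → Option U) → ℝ → Prop) :
    Prop := J.OK → PJ J c → ∃ δ₁ > 0, ∀ δ₀ ∈ Ioc 0 δ₁, ∀ σ p (U : Type) [Fintype U] μ,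
      PH J σ c p μ → P σ p U μ δ₀

/-- LEAF P-SM -/
def SmP : Prop := PL J c fun σ p U _ μ δ₀ => ∀ (b : Bp J c) δ (E : EC b p U δ), GP δ₀ σ μ b δ E → SmC E

/-- LEAF P-INV + LOC -/
def FrP : Prop := PL J c fun σ p U _ μ δ₀ => ∀ (b : Bp J c) δ (E : EC b p U δ), GP δ₀ σ μ b δ E → FrC E

/-- LEAF P-IX: the index of a chart is constant -/
def IxP : Prop := PL J c fun σ p U _ μ δ₀ => ∀ (b : Bp J c) δ (E : EC b p U δ), GP δ₀ σ μ b δ E →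
  SmC E → IxC E fun _ => True

/-- LEAF P-DEC, one rate for all solutions -/
def DecP : Prop := PL J c fun σ p _ _ _ δ₀ => ∀ q (y : J.Obc c), SolOn p σ q y → Go δ₀ y p.P ∧
  ∀ i ∈ EdP c p.P, ∀ ha : Act J.m c i.1 (some i.2) (J.Θ y.s), ∃ d > δ₀,
    (J.K c i.1 _ _ ha).ELim d y.x (y.β i.1 i.2) (y.ζ i.1 i.2) (dr i.2)

/-- LEAF P-PNT: charts at the given weight -/
def ExP : Prop := PL J c fun σ p _ _ μ δ₀ =>
  ExH (J := J) (SolE p μ σ) (fun b δ E => GP (p := p) δ₀ σ μ b δ E ∧ δ = δ₀) fun _ => True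

/-- LEAF P-TAIL -/
def TlP : Prop := PL J c fun σ p _ _ μ δ₀ =>
  TlH (J := J) (SolE p μ σ) (GP (p := p) δ₀ σ μ) fun _ => True

/-- LEAF P-STB -/
def StP : Prop := PL J c fun σ p _ _ μ δ₀ =>
  StH (J := J) (SolE p μ σ) (GP (p := p) δ₀ σ μ) fun _ => True

end Crest.Agent.X212.Pte3
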