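import Crest.Agent.X212.Sw88.Dea

/-! Row 212, P-DEC: one rate of decay for the solutions on parts with ends of positive scalar
curvature. -/

set_option autoImplicit false
set_option linter.unusedSectionVars false
noncomputable section
open scoped Manifold ContDiff Topology InnerProductSpace
open MeasureTheory Set Function Filter

namespace Crest.Agent.X212.Pte3
open An M Nd18 Rdc90 Nk89 Cht98 Rf65
open An.Job (conn_xs SolOn)
open Tl47 (DR)
open Sw88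

theorem cls_con {κ lam : Type} [Fintype κ] [Fintype lam] {Y : Mf 3} [CompactSpace Y.M] {r : ℕ}
    {D : Nd18.YD Y.I Y.M κ lam} {c : Cfg (Y.M × ℝ) (Option κ) lam r} {β : YC Y.M κ lam}
    {u : Y.M × ℝ → CL c.m.V β.m.V} {ζ : Circle} {S : Set ℝ} {k : ℕ} {η : ℝ}
    (h : D.Cls c β u ζ S k η) (h0 : D.Zr β) : D.Cls c.con β u 1 S k η :=
  ⟨h.op, h.m, h.A, fun w hw x hx => by
    have z : ∀ w : List (Option κ), D.Z.Dw w (0 : Y.M × ℝ → β.m.V) = 0 := fun w => by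
      induction w with
      | nil => rfl
      | cons a w ih => rw [Pre.Dw, show D.Z.D a 0 = 0 from funext fun _ => Mp86.dv_const (0 : β.m.V), ih]
    rw [show YD.dP c.con β u 1 = 0 from funext fun z => by simp [YD.dP, h0 z.1, cs], z]
    simpa using (norm_nonneg _).trans (h.P w hw x hx)⟩

variable {Wi : Type} {X : Mf 4} {A κ lam : Type} [Fintype A] [Fintype κ] [Fintype lam]
  [DecidableEq lam] {M : Mark X A κ} {W : World M} {N : ML M lam} {Λ : Lns W N}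
  {A' h : Type} [Fintype A'] [DecidableEq A'] [Fintype h] {r n : ℕ}
  {J : Job Wi Λ A' h r n} {c : M.Cl}

theorem decAt (hJ : J.OK) (hP : PJ J c) : ∃ δ₁ > 0, ∀ δ ≤ δ₁, DecAt J c δ := by
  have cn := conn_xs J
  obtain ⟨d, h0, hd⟩ : ∃ d, (∀ a : cylW c, ∀ β, Bs (J.xs a).D β → DR (J.xs a).D β d) ∧ 0 < d :=
    ((eventually_all.2 fun a : cylW c =>
      let ⟨_, k⟩ := hP.py a a.2
      let ⟨_, k1, k2⟩ := Tl47.deceU k
      mem_of_superset (Ioc_mem_nhdsGT k1) fun _ h β b => (k2 β b).mono h.2).and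
      self_mem_nhdsWithin).exists
  refine ⟨d / 2, half_pos hd, fun δ h σ p q y hσ hp S => ?_⟩
  have H : PG J c σ p := ⟨hJ, hσ, hp⟩
  have bs : ∀ i ∈ EdP c p.P, Bs (J.xs i.1).D (y.β i.1 i.2) := fun i hi =>
    let ⟨_, k⟩ := hP.py _ i.1.2
    Elr.bs (hJ.xs _).1.yd (J.xs i.1).Y.dim (hP.nil _ i.1.2).1 k (S.crit _ i.1.2 _ hi)
  have el : ∀ i ∈ EdP c p.P, ∀ ha : Act J.m c i.1 (some i.2) (J.Θ y.s),
      (J.K c i.1 _ _ ha).ELim d y.x (y.β i.1 i.2) (y.ζ i.1 i.2) (dr i.2) := fun i hi ha => by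
    obtain ⟨T, t1, t2, t3⟩ := Dea.eqN H S hi ha
    have nl := hP.nil _ i.1.2
    rw [show (J.xs i.1).q q = 0 by simp [Xs.q, nl.2]] at t3
    exact Elr.elP nl.1 (bs i hi) hd (h0 _ _ (bs i hi)) S.adm (Dea.dr_or _) t1 t2 t3
      (S.lim _ _ ha hi)
  have l : δ < d := h.trans_lt (half_lt_self hd)
  refine ⟨⟨hJ.memBr hσ S.ov, hJ.memO hσ S.ov,
    let k := S.adm.con; ⟨k.ok, k.conn, k.sm, k.pos⟩, bs, fun i hi ha => ?_, S.int⟩,
    fun i hi ha => ⟨d, l, el i hi ha⟩⟩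
  obtain ⟨u, T, h1, h2, h3, h4⟩ := el i hi ha
  exact ⟨d, l, u, T, h1, h2, cls_con h3 (bs i hi).zr, fun k => (h4 k).imp fun C hC s hs =>
    cls_con (hC s hs) (bs i hi).zr⟩

variable (J c)

/-- **DEC** -/
theorem dec : Dec J c := fun hJ hP => let ⟨δ, h0, h⟩ := decAt hJ hP; ⟨δ, h0, h δ le_rfl⟩

/-- **P-DEC** -/
theorem decP : DecP J c := fun hJ hP => let ⟨δ, h0, h⟩ := decAt hJ hP
  ⟨δ, h0, fun δ₀ k σ p _ _ _ H q y S => h δ₀ k.2 σ p q y H.mem H.pok S⟩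

end Crest.Agent.X212.Pte3
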