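import Crest.Agent.X212.End14.Near
import Crest.Agent.X212.Kit16.Pt
import Crest.Agent.X212.An.CutT

/-! Row 212, PART-E: convergence in a chart with ends, with the gauges. -/

set_option autoImplicit false
set_option linter.unusedSectionVars false
noncomputable section
open scoped Manifold ContDiff Topology InnerProductSpace
open MeasureTheory Set Function Filter Real

namespace Crest.Agent.X212.Pte3
open An An.Pre Sob92 Mod61 Nd18 Eqv71 Nk89 Cyf70 End3 End14 Pj41 Neck67 Bki64 Cmp73 Std94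
open Prm93 (SB)

variable {E : Type} [NormedAddCommGroup E] [NormedSpace ℝ E] [FiniteDimensional ℝ E]
  [MeasurableSpace E] [BorelSpace E]
  {HM : Type} [TopologicalSpace HM] {I : ModelWithCorners ℝ E HM} [I.Boundaryless]
  {M : Type} [TopologicalSpace M] [ChartedSpace HM M] [IsManifold I ∞ M]
  [MeasurableSpace M] [T2Space M] [BorelSpace M] [SecondCountableTopology M]
  {κ : Type} [Fintype κ] {lam : Type} [Fintype lam]
  {T : Type} [NormedAddCommGroup T] [NormedSpace ℝ T]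
  {𝔉 : Fam I M (Option κ) lam T} {δ : ℝ} {r k : ℕ} {α : Type} {l : Filter α} {o : Ref 𝔉}

theorem ceq_val {B : Base M (Option κ) lam} {F : Fr I M (Option κ)} {O : Set M} (hO : IsOpen O)
    {c c' : Cfg M (Option κ) lam r} {u v : M → CL c.m.V c'.m.V} {ζ : Circle}
    (e : Mod61.EqOn B F O c c' u ζ) (h : ∀ x ∈ O, v x = u x) : Mod61.EqOn B F O c c' v ζ :=
  ⟨⟨e.m.su.congr h, fun x hx => h x hx ▸ e.m.uu x hx, fun x hx => h x hx ▸ e.m.uu' x hx,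
    fun x hx => h x hx ▸ e.m.J x hx, fun x hx => h x hx ▸ e.m.ρ x hx,
    fun x hx => h x hx ▸ e.m.j x hx⟩, fun x hx a => by
      rw [Pre.D_def, dv_congr ((hO.eventually_mem hx).mono h), h x hx]; exact e.W x hx a,
    fun x hx => h x hx ▸ e.Φ x hx, e.z⟩

/-! ### the cylinder -/

section cyl
variable {E3 : Type} [NormedAddCommGroup E3] [NormedSpace ℝ E3] [FiniteDimensional ℝ E3]
  [MeasurableSpace E3] [BorelSpace E3]
  {H3 : Type} [TopologicalSpace H3] {I3 : ModelWithCorners ℝ E3 H3} [I3.Boundaryless]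
  {Y : Type} [TopologicalSpace Y] [ChartedSpace H3 Y] [IsManifold I3 ∞ Y] [T2Space Y]
  [MeasurableSpace Y] [BorelSpace Y] [SecondCountableTopology Y] [CompactSpace Y]
  {D : YD I3 Y κ lam} {β β' : YC Y κ lam} (hD : D.OK)
include hD

/-- equivalences of `t`-invariant configurations do not depend on `t` -/
theorem inv_eqv (hβ : D.Adm β) (hβ' : D.Adm β') {u : Y × ℝ → CL β.m.V β'.m.V} {ζ : Circle}
    (e : Mod61.EqOn D.B D.Z univ (cy β) (cy β') u ζ) : u = fun x => u (x.1, 0) := by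
  have hu : Sm (IC I3) u := contMDiffOn_univ.1 e.m.su
  have p := (par0_iff ((IsConn.on hβ'.adm.conn univ).proj' hD.B)).2 e.W
  have h1 : ∀ y t, deriv (fun s => u (y, s)) t = 0 := fun y t => by
    have h2 : D.Z.D none u (y, t) + β'.W none y ∘L u (y, t) - u (y, t) ∘L β.W none y = 0 :=
      p (y, t) trivial none
    rw [hβ.tmp, hβ'.tmp, ContinuousLinearMap.zero_comp, ContinuousLinearMap.comp_zero, add_zero,
      sub_zero] at h2
    exact (D_none D.F.toPre hu (y, t)).symm.trans h2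
  exact funext fun x =>
    is_const_of_deriv_eq_zero ((sm_slice_snd hu x.1).differentiable (by simp)) (h1 x.1) x.2 0

theorem cb_eqv (hβ : D.Adm β) (hβ' : D.Adm β') {u : Y × ℝ → CL β.m.V β'.m.V} {ζ : Circle}
    (e : Mod61.EqOn D.B D.Z univ (cy β) (cy β') u ζ) : D.Z.Cb u := by
  have h := inv_eqv hD hβ hβ' e
  have hu : Sm (IC I3) u := contMDiffOn_univ.1 e.m.su
  rw [h] at hu ⊢
  exact cb_inv D.F.toPre (f := fun y => u (y, 0)) hu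

/-- bounded equivalences preserve closeness, with a constant -/
theorem cl_post {m m' : Md Y (Option κ) lam} {v : Y × ℝ → CL m.V m'.V} (hv : D.Z.Cb v) (k : ℕ) :
    ∃ A, ∀ W Φ z W' Φ' z', D.Adm ⟨m, W, Φ, z⟩ → D.Adm ⟨m', W', Φ', z'⟩ →
      Mod61.EqOn D.B D.Z univ (cy ⟨m, W, Φ, z⟩) (cy ⟨m', W', Φ', z'⟩) v 1 →
      ∀ (c : Cfg (Y × ℝ) (Option κ) lam r) u ζ O η, Cl D.Z c (cy ⟨m, W, Φ, z⟩) u (fun _ => ζ) O k η →
      Cl D.Z c (cy ⟨m', W', Φ', z'⟩) (fun x => v x ∘L u x) (fun _ => ζ) O k (A * |η|) := by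
  obtain ⟨C, hC⟩ := hv
  obtain ⟨C', hC'⟩ := Cb_clm adL ⟨C, hC⟩
  refine ⟨max (2 ^ k * |C k| * (2 ^ k * |C' k|)) (2 ^ k * |C k|),
    fun W Φ z W' Φ' z' hβ hβ' e c u ζ O η H => ?_⟩
  have i := (Iso0.of_mEq isOpen_univ e.m (OK.on hβ.adm.ok _) (OK.on hβ'.adm.ok _)).mono
    (subset_univ O)
  refine ⟨H.op, H.iso.trans i, fun a => ?_, ?_⟩
  · refine (((Lb.of_CB hC.1 (hC.2 k)).comp H.op ((H.A a).comp H.op (Lb.of_CB hC'.1 (hC'.2 k)))).congr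
      H.op fun x hx => ?_).mono (le_trans (le_of_eq ?_)
        (mul_le_mul_of_nonneg_right (le_max_left _ _) (abs_nonneg η)))
    · refine (dA_comp H.iso i hx a).trans ?_
      rw [dA, show cov D.Z (cy ⟨m, W, Φ, z⟩) (cy ⟨m', W', Φ', z'⟩) v a x = 0 from
        (par0_iff ((IsConn.on hβ'.adm.conn _).proj' hD.B)).2 e.W x trivial a,
        ContinuousLinearMap.zero_comp, zero_add]
      rfl
    · rw [abs_of_nonneg (by positivity : 0 ≤ 2 ^ k * |η| * |C' k|)]; ring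
  · refine (((Lb.of_CB hC.1 (hC.2 k)).app H.op H.P).congr H.op fun x hx => ?_).mono
      (mul_le_mul_of_nonneg_right (le_max_right _ _) (abs_nonneg η))
    have := dP_comp (c := c) (u := u) hβ'.adm.ok.Jsq i hx ζ 1
    rwa [one_mul, show dP (cy ⟨m, W, Φ, z⟩) (cy ⟨m', W', Φ', z'⟩) v 1 x = 0 from
      sub_eq_zero.2 (e.Φ x trivial).symm, zero_add, csB_apply, Circle.coe_one, cs_one] at this

/-- conjugation of stabilisers -/
theorem stb_conj (hβ : D.Adm β) (hβ' : D.Adm β') {v : Y × ℝ → CL β.m.V β'.m.V}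
    (e : Mod61.EqOn D.B D.Z univ (cy β) (cy β') v 1) {s : Y × ℝ → CL β.m.V β.m.V} {ζ : Circle}
    (h : Mod61.EqOn D.B D.Z univ (cy β) (cy β) s ζ) :
    Mod61.EqOn D.B D.Z univ (cy β') (cy β') (fun x => v x ∘L s x ∘L trn (v x)) ζ := by
  have a := ad0 hβ.adm
  have a' := ad0 hβ'.adm
  have := ceq_trans_id hD.B hD.G isOpen_univ a' a a' (ceq_trans_id hD.B hD.G isOpen_univ a' a a
    (ceq_symm_id hD.B hD.G isOpen_univ a a' e) h) e
  rwa [inv_one, mul_one, one_mul] at this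

omit hD in
theorem cls_W {c : Cfg (Y × ℝ) (Option κ) lam r} {W : c.m.Cn} {u : Y × ℝ → CL c.m.V β.m.V}
    {ζ : Circle} {S : Set ℝ} {η : ℝ} (H : D.Cls c β u ζ S k η)
    (e : ∀ x ∈ (univ : Set Y) ×ˢ S, ∀ a, W a x = c.W a x) :
    D.Cls ⟨c.m, W, c.Φ, c.z⟩ β u ζ S k η :=
  ⟨H.op, H.m, fun i w hw z hz => Eq.trans_le (congrArg _ (Prm93.Dw_congr w
    (((isOpen_univ.prod H.op).eventually_mem hz).mono fun y hy => congrArg (fun T : CL c.m.V c.m.V =>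
      (D.Z.D i u y + β.W i y.1 ∘L u y - u y ∘L T) ∘L trn (u y)) (e y hy i)))) (H.A i w hw z hz), H.P⟩

end cyl

/-! ### limits -/

theorem sub_aux {X : Type} [AddCommGroup X] (A : X) {B C D : X} (h : B + C - D = 0) :
    A + C - D = A - B := by rw [← sub_eq_zero, ← h]; abel

theorem ulim_post [l.NeBot] (H : 𝔉.OK) {y₀ : Pnt o r} {c₀ : Cfg M (Option κ) lam r}
    {g : M → CL c₀.m.V o.m.V} {ξ : Circle} (h0 : c₀.m.OK I 𝔉.B)
    (hg : Mod61.EqOn 𝔉.B (𝔉.G y₀.t).F 𝔉.Om c₀ y₀.cfg g ξ) {c : α → Cfg M (Option κ) lam r}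
    {e : α → Option κ → Π x : M, TangentSpace I x} {u : ∀ i, M → CL (c i).m.V c₀.m.V}
    {ζ : α → Circle} (hu : ULim I 𝔉.B l 𝔉.Om e c c₀ u ζ) {t : α → T} (ht : Tendsto t l (𝓝 y₀.t))
    {W : ∀ i, (c i).m.Cn} (hc : ∀ᶠ i in l, (c i).m.OK I 𝔉.B ∧ ∀ x ∈ 𝔉.Om, ∀ a,
      e i a x = (𝔉.G (t i)).F.e a x ∧ W i a x = (c i).W a x) :
    ULim I 𝔉.B l 𝔉.Om (fun i => (𝔉.G (t i)).F.e) (fun i => ⟨(c i).m, W i, (c i).Φ, (c i).z⟩) y₀.cfg
      (fun i x => g x ∘L u i x) fun i => ξ * ζ i := by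
  have hQ := ht.eventually (H.opn.mem_nhds y₀.ht)
  have ht' := tendsto_nhdsWithin_iff.2 ⟨ht, hQ⟩
  have i0 := Iso0.of_mEq H.Om.2 hg.m (OK.on h0 _) (OK.on o.ok _)
  have cg : Cv I l 𝔉.Om (fun _ => g) g := .fixed H.Om.2 i0.su
  have iu := fun x hx => ulim_iso hu (hc.mono fun _ k => k.1) h0 (x := x) hx
  refine ⟨fun x hx => ?_, fun a => ?_, ?_, ?_⟩
  · obtain ⟨N, h1, h2, h3⟩ := hu.m x hx
    exact ⟨N ∩ 𝔉.Om, h1.inter H.Om.2, ⟨h2, hx⟩, (h3.and hc).mono fun i k =>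
      (((Iso0.of_mEq h1 k.1 (OK.on k.2.1 _) (OK.on h0 _)).mono inter_subset_left).trans
        (i0.mono inter_subset_right)).mEq (OK.on k.2.1 _) (OK.on o.ok _)⟩
  · have c1 : Cv I l 𝔉.Om (fun i => (𝔉.G (t i)).F.D a g) ((𝔉.G y₀.t).F.D a g) :=
      (Cv.sum fun b => (sb_cv (H.sS a b) y₀.ht ht').smul (cg.D H.Om.2 𝔉.F0.toPre b)).congr' H.Om.2
        (hQ.mono fun i hi x _ => congrFun ((H.mix _ hi).D a _) x)
        fun x _ => congrFun ((H.mix _ y₀.ht).D a _) x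
    refine (((c1.sub (.fixed H.Om.2 fun _ hx => (c1.smoothAt H.Om.2 hx).contMDiffWithinAt)).clm_comp
      (cg.clm trnL)).add
      (cg.clm_comp ((hu.A a).clm_comp (cg.clm adL)))).congr (fun x hx => ?_) fun x _ => ?_
    · filter_upwards [iu x hx, hc.prod_mk (H.Om.2.mem_nhds hx)] with q k1 k2
      have p := (par0_iff ((IsConn.on (y₀.ad0 H).conn _).proj' H.B)).2 hg.W q.2 k2.2 a
      have := dA_comp (F := (𝔉.G (t q.1)).F) (c := c q.1) (c' := c₀) (c'' := y₀.cfg) k1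
        (i0.mono (singleton_subset_iff.2 k2.2)) rfl a
      simp only [dA, cov, Pre.D_def] at this
      simp only [(k2.1.2 _ k2.2 a).2]
      refine this.trans (congrArg₂ _ (congrArg₂ _ ?_ rfl) ?_)
      · exact sub_aux _ p
      · simp only [dv, (k2.1.2 _ k2.2 a).1]; rfl
    · simp
      rfl
  · refine (((Cv.const (csB o.m.J ξ)).app (cg.app hu.Φ))).congr' H.Om.2
      (.of_forall fun i x hx => ?_) fun x hx => hg.Φ x hx
    show cs o.m.J _ (g x (u i x _)) = cs o.m.J ξ (g x (cs c₀.m.J _ (u i x _)))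
    rw [map_cs (hg.m.J x hx), Circle.coe_mul]
    exact (cs_mul o.ok.Jsq _ _ _).symm
  · refine (show y₀.cfg.z = _ from hg.z) ▸ (hu.z.const_smul ((ξ : ℂ) ^ 2)).congr fun i => ?_
    rw [smul_smul, Circle.coe_mul, mul_pow]

/-- the fields of a cut in new gauges -/
theorem clim_post {N : α → ℕ} {N₀ N₁ : ℕ} {J₀ : En (Fin N₀)} {J₁ : En (Fin N₁)}
    (hJ : J₁ * J₁ = -1) {u : ∀ i, CL (Eu (Fin (N i))) (Eu (Fin N₀))} {ψ : ∀ i, L2c (Fin (N i))}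
    {ψ₀ : L2c (Fin N₀)} (h : CLim l J₀ u ψ ψ₀) {A : α → CL (Eu (Fin N₀)) (Eu (Fin N₁))} {A₀}
    (hA : Tendsto A l (𝓝 A₀)) {U : ∀ i, CL (Eu (Fin (N i))) (Eu (Fin N₁))}
    (e : ∀ᶠ i in l, A i ∘L J₀ = J₁ ∘L A i ∧ U i = A i ∘L u i) (η₀ : Circle) :
    CLim l J₁ U ψ (Cnt93.LU (csE J₁ η₀ ∘L A₀) ψ₀) := by
  obtain ⟨η, h⟩ := h
  have c : Continuous fun p : CL (Eu (Fin N₀)) (Eu (Fin N₁)) × L2c (Fin N₀) =>
      Cnt93.LU (csE J₁ η₀ ∘L p.1) p.2 :=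
    (((ContinuousLinearMap.compLpL₂ 2 μc (ContinuousLinearMap.id ℝ _)).continuous.comp
      (f := fun p : CL (Eu (Fin N₀)) (Eu (Fin N₁)) × L2c (Fin N₀) => csE J₁ η₀ ∘L p.1)
      (continuous_const.clm_comp continuous_fst)).clm_apply continuous_snd :)
  refine ⟨fun i => η₀ * η i, ((c.tendsto (A₀, ψ₀)).comp (hA.prodMk_nhds h)).congr' (e.mono
    fun i k => (Cnt93.LU_LU _ _ _).trans (congrArg (Cnt93.LU · _) (ContinuousLinearMap.ext
      fun v => ?_)))⟩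
  show cs J₁ _ (A i (cs J₀ _ (u i v))) = cs J₁ _ (U i v)
  rw [map_cs k.1, cs_mul hJ, Circle.coe_mul, k.2]
  rfl

variable (X : Ends 𝔉 δ)

/-- `End14.near` with its gauges -/
theorem near' {R R' d : ℝ} {y₀ : Pnt o r} {𝒰 : Ultrafilter α} {c : α → Cfg M (Option κ) lam r}
    {t : α → T} {ζ' : α → Circle} {v : ∀ i a, (X.P a).Y.M × ℝ → CL (c i).m.V o.m.V}
    (hl : X.Lit o R) (hR : R + 1 ≤ R') (hd : δ < d) (ht : Tendsto t 𝒰 (𝓝 y₀.t))
    (h0 : ∀ᶠ i in (𝒰 : Filter α), Adm0 (c i) 𝔉.B (𝔉.G (t i)) ∧ ∀ x ∈ 𝔉.Om \ 𝔉.Om', (c i).Φ x = 0)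
    {u : ∀ i, M → CL (c i).m.V o.m.V} {ζ : α → Circle}
    (hu : ULim I 𝔉.B 𝒰 𝔉.Om (fun i => (𝔉.G (t i)).F.e) c y₀.cfg u ζ)
    (h1 : ∀ a, X.Act a → (∀ᶠ i in (𝒰 : Filter α), ∀ j, ∃ C,
      (X.P a).EB (c i) ((X.P a).sl o (R + 1) (t i)) (v i a) (ζ' i) d R' j C) ∧
      ∀ j, ∃ C, ∀ᶠ i in (𝒰 : Filter α),
        (X.P a).EB (c i) ((X.P a).sl o (R + 1) (t i)) (v i a) (ζ' i) d R' j C)
    (h2 : ∀ a, X.Act a → ∀ (s : (X.P a).Y.M × ℝ → CL o.m.V o.m.V) (ζ : Circle),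
      Mod61.EqOn (X.P a).D.B (X.P a).D.Z univ (cy ((X.P a).sl o (R + 1) y₀.t))
        (cy ((X.P a).sl o (R + 1) y₀.t)) s ζ → ∀ t' ∈ 𝔉.Q,
      Mod61.EqOn (X.P a).D.B (X.P a).D.Z univ (cy ((X.P a).sl o (R + 1) t'))
        (cy ((X.P a).sl o (R + 1) t')) s ζ) (hk : 7 ≤ k) :
    ∃ (y : α → Pnt o r) (y₁ : Pnt o r) (w : M → CL o.m.V o.m.V) (U : ∀ i, M → CL (c i).m.V o.m.V)
      (θ : α → Circle) (h : α → M → CL o.m.V o.m.V), y₁.t = y₀.t ∧ AlE o w 1 ∧ y₀.Eq y₁ w 1 ∧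
      Tendsto (fun i => (y i).pt k) 𝒰 (𝓝 (y₁.pt k)) ∧ (∀ᶠ i in (𝒰 : Filter α), (y i).t = t i ∧
        Mod61.EqOn 𝔉.B (𝔉.G (t i)).F 𝔉.Om (c i) (y i).cfg (U i) (θ i)) ∧
      ∀ x ∈ 𝔉.Om, Tendsto (h · x) 𝒰 (𝓝 (w x)) ∧ ∀ᶠ i in (𝒰 : Filter α),
        h i x ∘L o.m.J = o.m.J ∘L h i x ∧ U i x = h i x ∘L u i x := by
  have H := X.ok
  have hQ := ht.eventually (H.opn.mem_nhds y₀.ht)
  have ht' := tendsto_nhdsWithin_iff.2 ⟨ht, hQ⟩
  have hc := hQ.and (h0.mono fun _ h => h.1)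
  have hR' : X.R ≤ R' := by linarith [hl.le]
  obtain ⟨V, θ, k1, k2, k3, k4⟩ := ends_gauge X hl hc hu ht hR (X.δ0.trans hd) h1 h2
  obtain ⟨U, h, w, L, g1, g2, g3, g4, g5, g6⟩ := glue X hc hu ht hR' k3 k4
  have hL := hR'.trans g1
  have cA := cv_gA H hc hu g4 g5 ht'
  have cP := cv_gP H hc hu g4 g5 k1
  have tA := tb_gA hL hQ (k3.congr g1 g2)
  have tP := tb_gP (h0.mono fun _ h => h.2) (k3.congr g1 g2)
  have i₀ := (𝒰.nonempty_of_mem univ_mem).some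
  obtain ⟨y₁, e1, e2, e3, e4⟩ := End3.pt o H r y₀.t y₀.cfg w 1 y₀.ht (adm0 (y₀.ad0 H))
    (fun x hx => y₀.off H x hx.2) ((iso0_lim H.Om.2 o.ok o.ok g4 fun x hx => (g5 x hx).curry.mono
      fun _ hi => hi.self_of_nhds.1).mEq (OK.on o.ok _) (OK.on o.ok _))
    ((tA.lim cA (pure i₀)).nice hL hd fun _ => cA.smoothAt isOpen_univ trivial)
    ((tP.lim cP (pure i₀)).nice hL hd fun _ => cP.smoothAt isOpen_univ trivial)
  have : ∀ᶠ i in (𝒰 : Filter α), ∃ y : Pnt o r, y.t = t i ∧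
      Mod61.EqOn 𝔉.B (𝔉.G (t i)).F 𝔉.Om (c i) y.cfg (U i) (θ i) ∧ (∀ x, y.α x = idx (𝔉.Si (t i) x)
        (.id ℝ _) (gA o (t i) (c i) (U i) x)) ∧ y.φ = gP o (c i) (U i) (θ i) := by
    filter_upwards [hQ, h0, k2, g3] with i a b e f
    refine End3.pt o H r _ _ _ _ a b.1 b.2 (f.mEq (OK.on b.1.ok _) (OK.on o.ok _))
      ((tb_gA (l := pure i) hL a (e.congr g1 g2)).nice hL hd (sm_gA H a b.1 f))
      ((tb_gP (l := pure i) b.2 (e.congr g1 g2)).nice hL hd ?_)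
    rw [gP_eq H b.2 _ _ (t i)]
    exact Eqv71.sm_ind H.Om fun x hx => ((csB o.m.J (θ i)).contMDiff.contMDiffAt.comp x
      ((f.su x hx).clm_apply (b.1.sm x))).sub (o.cΦ.choose_spec.1 x)
  obtain ⟨y, hy⟩ := this.choice
  have sS : SB 𝔉.F0.toPre 𝔉.Q fun t x => idx (𝔉.Si t x) (ContinuousLinearMap.id ℝ o.m.A) :=
    Map77.Cls.idx (K := Map77.sb 𝔉.F0.toPre H.mix H.sS) H.sSi (SB.fixed (Cb_const _))
  refine ⟨y, y₁, w, U, θ, h, e1, ⟨rfl, ale X e2 e1 hl g6⟩, e2, .prodMk_nhds ?_ (.prodMk_nhds ?_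
    (.prodMk_nhds ?_ ?_)), hy.mono fun i hi => ⟨hi.1, hi.2.1⟩, fun x hx => ⟨g4.pt x hx,
      (g5 x hx).curry.mono fun i hi =>
        ⟨(hi.self_of_nhds.1.J x rfl).symm, hi.self_of_nhds.2.self_of_nhds⟩⟩⟩
  · exact (tA.app fun j => (sS.bound j y₀.ht).imp fun _ hC => ((ht'.eventually hC).and hQ).mono
      fun i hi => Lb.of_CB (sS.cb _ hi.2).choose_spec.1 hi.1).tend hL hd
      (funext e3 ▸ (sb_cv sS y₀.ht ht').app cA) (hy.mono fun i hi => funext hi.2.2.1)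
      (fun i => (y i).hα) y₁.hα (by omega)
  · exact tP.tend hL hd (e4 ▸ cP) (hy.mono fun i hi => hi.2.2.2) (fun i => (y i).hφ) y₁.hφ
      (by omega)
  · refine (show y₁.z = _ from e2.z) ▸ ((((continuous_subtype_val.tendsto _).comp k1).pow 2).smul
      hu.z).congr' (hy.mono fun i hi => .trans ?_ hi.2.1.z.symm)
    simp [smul_smul, ← mul_pow]
  · exact e1 ▸ ht.congr' (hy.mono fun i hi => hi.1.symm)

end Crest.Agent.X212.Pte3
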