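import Crest.Agent.X212.Wrd81.Jb
import Crest.Agent.X212.Cqn41.Clc

/-! Row 212, NT-R, RD: spinor words are homogeneous and local in the spinor. -/

set_option autoImplicit false
set_option linter.unusedSectionVars false
noncomputable section
open scoped Manifold ContDiff Topology InnerProductSpace
open MeasureTheory Set Function Filter

namespace Crest.Agent.X212.Pte3.Rd
open An Sob92 Mod61 Wrd81 Eqv71 Prm93

variable {E : Type} [NormedAddCommGroup E] [NormedSpace ℝ E] [FiniteDimensional ℝ E]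
  [MeasurableSpace E] [BorelSpace E]
  {HM : Type} [TopologicalSpace HM] {I : ModelWithCorners ℝ E HM} [I.Boundaryless]
  {M : Type} [TopologicalSpace M] [ChartedSpace HM M] [IsManifold I ∞ M]
  [MeasurableSpace M] [T2Space M] [BorelSpace M] [SecondCountableTopology M]
  {ι : Type} [Fintype ι] {lam : Type} [Fintype lam] {r n : ℕ} {K Ω : Set M} {s : ℝ}

section fn
variable {c : Cfg M ι lam r} {B : Base M ι lam} {G : Geo I M ι lam} {Φ : M → c.m.V}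
  (h : Wrd81.Pc c B G K Ω)
include h

theorem sb_lt {t : Lt M} (ht : LtIn I Ω t) {a : M → c.m.V} (ha : Sb I a) :
    Sb I (c.lt G.F t a) := by
  cases t with
  | mul f => exact (Sb.of_cb (Tf.cb G.F ht)).smul ha
  | cl g => exact .sum _ fun b _ => .of_cb (F := G.F) (Cb_of_hcs
      (sm_smul (G.F.sm_D ht.sm b) ((h.ok.sρ b).clm_apply ha.sm)) (G.F.hcs_D ht.hcs b).smul_right)
  | im => exact ha.clm c.m.J
  | G => exact sb_res _ _ _

variable (hT : ∃ C, G.F.Tame C) (h1 : Sb I c.Φ) (h2 : Sb I Φ) (e : ∀ x ∈ K, Φ x = s • c.Φ x)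
include hT h1 h2 e

theorem wd_scal {u : SW M} (hu : SwIn I Ω u) : Sb I (c.sw G.F u) ∧ Sb I (wd (c.lt G.F) Φ u) ∧
    ∀ x ∈ K, wd (c.lt G.F) Φ u x = s • c.sw G.F u x := by
  induction u with
  | nil => exact ⟨h1, h2, e⟩
  | cons t u ih =>
    obtain ⟨a, b, k⟩ := ih fun t k => hu t (List.mem_cons_of_mem _ k)
    have ht := hu t List.mem_cons_self
    refine ⟨sb_lt h ht a, sb_lt h ht b, fun x hx => ?_⟩
    show c.lt G.F t (wd (c.lt G.F) Φ u) x = s • c.lt G.F t (c.sw G.F u) x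
    cases t with
    | mul f => simp only [Cfg.lt, k x hx, smul_comm s]
    | cl g => simp only [Cfg.lt, k x hx, map_smul, Finset.smul_sum, smul_comm s]
    | im => simp only [Cfg.lt, k x hx, map_smul]
    | G =>
      exact (Cqn41.res_loc' hT h.rs.mc h.cl b ((sb_const s).smul a) k hx).trans
        (congrFun (Mp86.res_smul h.rs.bmp h.rs.mc s _) x)

theorem tD_scal (hΩ : Ω ⊆ K) {τ : Tm M lam r n} (t : TmIn I Ω τ) (z : τ.Zc) (x : M) :
    (⟨c.m, c.W, Φ, c.z⟩ : Cfg M ι lam r).tD B G.F τ x = s • c.tD B G.F τ x := by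
  by_cases hx : x ∈ K
  swap
  · obtain ⟨L, -, l1, l2⟩ := t.supp (ι := ι)
    rw [(l2 _ _ _ x fun k => hx (hΩ (l1 k))).1, (l2 _ _ _ x fun k => hx (hΩ (l1 k))).1, smul_zero]
  have l : (⟨c.m, c.W, Φ, c.z⟩ : Cfg M ι lam r).lt G.F = c.lt G.F :=
    funext fun t => by cases t <;> rfl
  have w := fun {u} hu => (wd_scal h hT h1 h2 e (u := u) hu).2.2 x hx
  cases τ with
  | lin u => simp only [Cfg.tD, Cfg.sw, l, w t.1, map_smul]
  | anti d g u =>
    obtain ⟨j, rfl⟩ := z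
    simp only [Cfg.tD, Cfg.sw, Cfg.co, l, w t.2.2, map_smul, ← csL_apply]
  | _ => exact (smul_zero s).symm

end fn

variable {T : Type} [NormedAddCommGroup T] [NormedSpace ℝ T] {𝔉 : Mod61.Fam I M ι lam T}
  {o : Ref 𝔉} {m k : ℕ}

/-- the line through `y` in the direction of the spinor `φ` -/
def lf (y : Pnt o r) {φ : M → o.m.V} (hφ : φ ∈ Hs 𝔉.F0.toPre o.Pp) (s : ℝ) : Pnt o r :=
  ⟨y.α, y.φ + s • φ, y.z, y.t, y.hα, add_mem y.hφ (Submodule.smul_mem _ _ hφ), y.ht⟩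

variable (h : 𝔉.OK) (y : Pnt o r) {φ : M → o.m.V} (hφ : φ ∈ Hs 𝔉.F0.toPre o.Pp)
include h

theorem lf_pt (hk : 3 ≤ k) (s : ℝ) :
    (lf y hφ s).pt k = y.pt k + s • ((0, ofV _ (k + 1) _ φ, 0) : o.C r k) :=
  C_ext h hk (by simp [lf, Pnt.pt])
    (by rw [Pnt.val_φ _ hk, Prod.snd_add, Prod.fst_add, val_add, y.val_φ hk,
      Prod.smul_snd, Prod.smul_fst, val_smul, val_ofV hφ (by omega)]; rfl)
    (by simp [lf, Pnt.pt])

theorem sb_Φ : Sb I y.cfg.Φ := (Sb.of_cb o.cΦ).add (Sb.of_cb (Hs_cb h.sup y.hφ))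

theorem lf_tD (hK : IsClopen K) (hO : IsOpen Ω) (h0 : 𝔉.F0.μ (K \ Ω) = 0) (hΩ : Ω ⊆ K)
    (hz : ∀ x ∈ K, y.cfg.Φ x = 0) {τ : Tm M lam r n} (t : TmIn I Ω τ) (z : τ.Zc) (s : ℝ) (x : M) :
    (lf y hφ s).cfg.tD 𝔉.B (𝔉.G y.t).F τ x = s • (lf y hφ 1).cfg.tD 𝔉.B (𝔉.G y.t).F τ x :=
  have e : ∀ s : ℝ, ∀ x ∈ K, o.Φ0 x + (y.φ x + s • φ x) = s • φ x := fun s x hx => by
    have k : o.Φ0 x + y.φ x = 0 := hz x hx
    rw [← add_assoc, k, zero_add]
  tD_scal (Wrd81.pc h (lf y hφ 1) hK hO h0) (h.tameG _ y.ht) (sb_Φ h _) (sb_Φ h (lf y hφ s))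
    (fun x hx => (e s x hx).trans (congrArg (s • ·) ((e 1 x hx).trans (one_smul _ _)).symm))
    hΩ t z x

omit y hφ in
theorem mem_HO {V : Type} [NormedAddCommGroup V] [InnerProductSpace ℝ V] [FiniteDimensional ℝ V]
    {P : M → CL V V} (hk : 4 ≤ k) (hK : IsClopen K) (hΩ : K ⊆ Ω) {a : 𝔉.F0.H k P}
    (h0 : ∀ x ∉ K, 𝔉.F0.val k P a x = 0) : a ∈ HO 𝔉.F0.toPre k P Ω := by
  have := FiniteDimensional.complete ℝ V
  have g := Eqv71.Cb_ind hK (Cb_const (F := 𝔉.F0.toPre) (1 : ℝ))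
  convert smulH_mem_HO g ((closure_minimal support_indicator_subset hK.1).trans hΩ) a using 1
  refine val_injective h.sup hk (funext fun x => ?_)
  rw [val_smulH h.sup hk g]
  by_cases hx : x ∈ K <;> simp [hx, h0]

end Crest.Agent.X212.Pte3.Rd
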