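import Crest.Agent.X212.Tl47.Un
import Crest.Agent.X212.Tl47.Defs
import Crest.Agent.X212.Dec35.Asm
import Crest.Agent.X212.Pnt66.Ex
import Crest.Agent.X212.Pte3.Nr1
import Crest.Agent.X212.Mon62.PS

/-! Row 212, PT-TLP: uniform tails on a half cylinder of positive scalar curvature. -/

set_option autoImplicit false
set_option linter.unusedSectionVars false
noncomputable section
open scoped Manifold ContDiff Topology InnerProductSpace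
open MeasureTheory Set Function Filter Real

namespace Crest.Agent.X212.Pte3
open An Nd18 Cyf70 Rdc90 Bki64 Neck67 Eqv71 Pj41
open Tmp64 (AdmOn)
open Cay24 (Mv mv wn)
open Tl47 (DR NbH)
open Dec35 (win_end wn_sub)

variable {E3 : Type} [NormedAddCommGroup E3] [NormedSpace ℝ E3] [FiniteDimensional ℝ E3]
  [MeasurableSpace E3] [BorelSpace E3]
  {H3 : Type} [TopologicalSpace H3] {I3 : ModelWithCorners ℝ E3 H3} [I3.Boundaryless]
  {Y : Type} [TopologicalSpace Y] [ChartedSpace H3 Y] [IsManifold I3 ∞ Y] [T2Space Y]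
  [MeasurableSpace Y] [BorelSpace Y] [SecondCountableTopology Y] [CompactSpace Y]
  {κ : Type} [Fintype κ] {lam : Type} [Fintype lam] {D : YD I3 Y κ lam} {β β' γ : YC Y κ lam}
  {r : ℕ} {σ T d : ℝ} {α : Type} {l : Filter α}

variable (Y) in
/-- the half cylinder -/
abbrev hf (σ T : ℝ) : Set (Y × ℝ) := univ ×ˢ {s | T < σ * s}

theorem hf_op : IsOpen (hf Y σ T) :=
  isOpen_univ.prod (isOpen_lt (by fun_prop) (by fun_prop))

theorem hf_sub {T' : ℝ} (h : T ≤ T') : hf Y σ T' ⊆ hf Y σ T :=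
  prod_mono_right fun _ hs => h.trans_lt hs

variable (D) in
/-- convergence on the half cylinder -/
def LimY (σ : ℝ) (c : Cfg (Y × ℝ) (Option κ) lam r) (β : YC Y κ lam) (ζ : Circle) : Prop :=
  ∃ u, ∀ k, ∀ η > 0, ∃ T', Cl D.Z c (cy β) u (fun _ => ζ) (hf Y σ T') k η

variable (D) in
/-- uniform nearness far out -/
def NrY (σ : ℝ) (l : Filter α) (c : α → Cfg (Y × ℝ) (Option κ) lam r) (β : YC Y κ lam) : Prop :=
  ∀ η > 0, ∃ T', ∀ᶠ i in l, ∀ s, T' ≤ s → ∃ u ξ, Cn D (c i) β u ξ (win Y (σ * s) η⁻¹) η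

/-- equivalences of reducible limits preserve closeness, with any phase -/
theorem cl_eqv (hβ : Bs D β) (hβ' : Bs D β') (e : D.Eqv β β') (ξ : Circle) :
    ∃ g : Y × ℝ → CL β.m.V β'.m.V, ∀ k, ∃ A, ∀ (c : Cfg (Y × ℝ) (Option κ) lam r) u ζ O η,
      Cl D.Z c (cy β) u (fun _ => ζ) O k η →
      Cl D.Z c (cy β') (fun x => g x ∘L u x) (fun _ => ξ * ζ) O k (A * |η|) := by
  obtain ⟨g, ζ, e⟩ := e
  exact ⟨g, Pnt66.cl_post hβ'.adm.adm.ok.Jsq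
    (.of_mEq isOpen_univ e.m (OK.on hβ.adm.adm.ok _) (OK.on hβ'.adm.adm.ok _))
    ((par0_iff ((IsConn.on hβ'.adm.adm.conn _).proj' hβ.ok.B)).2 e.W) (fun x => (hβ'.zr _).trans
      ((congrArg (cs _ _) ((congrArg (g x) (hβ.zr x.1)).trans (map_zero _))).trans (Mod61.cs_zero _ _)).symm)
    (cb_eqv hβ.ok hβ.adm hβ'.adm e)⟩

theorem small_of (A : ℝ) {η : ℝ} (p : 0 < η) : ∃ η' > 0, η' ≤ η ∧ A * |η'| ≤ η := by
  have q : 0 < η / (|A| + 1) := by positivity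
  refine ⟨_, q, div_le_self p.le (by linarith [abs_nonneg A]), ?_⟩
  rw [abs_of_pos q, ← mul_div_assoc, div_le_iff₀ (by positivity)]
  nlinarith [le_abs_self A]

theorem LimY.eqv {c : Cfg (Y × ℝ) (Option κ) lam r} {ζ : Circle} (h : LimY D σ c β ζ)
    (hβ : Bs D β) (hβ' : Bs D β') (e : D.Eqv β β') : LimY D σ c β' 1 := by
  obtain ⟨u, h⟩ := h
  obtain ⟨g, hg⟩ := cl_eqv (r := r) hβ hβ' e ζ⁻¹
  refine ⟨fun x => g x ∘L u x, fun k η p => ?_⟩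
  obtain ⟨A, hA⟩ := hg k
  obtain ⟨η', p1, -, p2⟩ := small_of A p
  obtain ⟨T', h⟩ := h k η' p1
  have := hA _ _ _ _ _ h
  rw [inv_mul_cancel] at this
  exact ⟨T', this.mono hf_op Subset.rfl le_rfl p2⟩

theorem NrY.eqv {c : α → Cfg (Y × ℝ) (Option κ) lam r} (h : NrY D σ l c β) (hβ : Bs D β)
    (hβ' : Bs D β') (e : D.Eqv β β') : NrY D σ l c β' := fun η p => by
  obtain ⟨g, hg⟩ := cl_eqv (r := r) hβ hβ' e 1
  obtain ⟨A, hA⟩ := hg ⌈η⁻¹⌉₊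
  obtain ⟨η', p1, p2, p3⟩ := small_of A p
  have p4 := inv_anti₀ p1 p2
  obtain ⟨T', h⟩ := h η' p1
  refine ⟨T', h.mono fun i hi s hs => ?_⟩
  obtain ⟨u, ξ, hu⟩ := hi s hs
  exact ⟨_, _, (hA _ _ _ _ _ (Cl.mono hu (win_op _ _) (win_sub (by simpa using p4))
    (Nat.ceil_mono p4) le_rfl)).mono (win_op _ _) Subset.rfl le_rfl p3⟩

/-- decay in local gauges above the height `a` -/
theorem dec_mv (hb : Bs D β) (h : DR D β d) (hσ : σ = 1 ∨ σ = -1) (k : ℕ) : ∃ η > 0, ∃ B,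
    ∀ (c : Cfg (Y × ℝ) (Option κ) lam r) (T a : ℝ), T + η⁻¹ ≤ a → AdmOn c D.B D.G (hf Y σ T) →
    Eqs D c (hf Y σ T) → (∀ s, a ≤ s → ∃ u ζ, Cn D c β u ζ (win Y (σ * s) η⁻¹) η) →
    ∀ s, a ≤ s → Mv D β c (wn Y σ s) k B (exp (d * a) * exp (-d * s)) := by
  obtain ⟨η, p, h⟩ := h k 1 one_pos
  obtain ⟨B, b0, h1, h2⟩ := Cay24.lb_cy hb.adm k
  let L : β.m.A →L[ℝ] En (Fin β.m.N) := opL
  refine ⟨η, p, B + ‖L‖, fun c T a a1 ha he hn s a2 => ?_⟩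
  obtain ⟨f, n1, n2, n3, -, u, hu⟩ := h r c (σ * s - (s - a)) (σ * s + (s - a)) (by linarith)
    fun t ht => by
      have e : σ * (σ * t) = t := by rcases hσ with rfl | rfl <;> simp
      have k : a ≤ σ * t := by rcases hσ with rfl | rfl <;> linarith [ht.1, ht.2]
      have sub := win_end (Y := Y) hσ (a1.trans k)
      obtain ⟨u, ζ, hu⟩ := hn _ k
      rw [e] at sub hu
      exact ⟨ha.mono sub, fun x hx => he x (sub hx), u, ζ, Cl.cls hb.adm isOpen_Ioo (ha.mono sub) hu⟩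
  refine ⟨(bh β f 0).W, (bh β f 0).Φ, u, 1, n3, fun o => ?_,
    (h2.congr isOpen_univ fun x _ => add_zero _).mono (by linarith [norm_nonneg L]),
    (hu _ ⟨by linarith, by linarith⟩).mono (win_op _ 1) Subset.rfl le_rfl (le_of_eq ?_)⟩
  · refine (Lb.add isOpen_univ (h1 o) (Lb.clm isOpen_univ L (C := |1|) ?_)).mono (by simp)
    cases o
    exacts [(Lb.const isOpen_univ 0).mono (by simp), Rd78.lb_fst (n1.sm _) (n2 _)]
  · rw [sub_sub_cancel, add_sub_cancel_left, min_self, one_mul, ← exp_add]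
    congr 1
    ring

/-- **uniform tails** towards moving flat limits -/
theorem tailY (hσ : σ = 1 ∨ σ = -1) (hd : 0 < d) (hβ : Bs D β) (h0 : ∀ β, Bs D β → DR D β d)
    {c : α → Cfg (Y × ℝ) (Option κ) lam r} {W : α → β.m.Cn} {Φ : α → Y → β.m.V}
    (hc : ∀ᶠ i in l, AdmOn (c i) D.B D.G (hf Y σ T) ∧ Eqs D (c i) (hf Y σ T) ∧
      Bs D (mv β (W i) (Φ i)) ∧ LimY D σ (c i) (mv β (W i) (Φ i)) 1)
    (hw : ∀ k, ∃ B, ∀ᶠ i in l, ∀ a, Lb D.Z.toPre univ k (fun x => W i a x.1) B)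
    (hn : NrY D σ l c β) (hb : ∀ k T', ∃ C, ∀ᶠ i in l, ∀ s ∈ Icc (T + 2) T',
      ∃ u ξ, Cl D.Z (c i) (cy β) u (fun _ => ξ) (wn Y σ s) k C) :
    ∃ v : ∀ i, Y × ℝ → CL (c i).m.V β.m.V,
      (∀ᶠ i in l, ∀ k, ∃ C, ∀ s, T + 2 ≤ s → Cl D.Z (c i) (cy (mv β (W i) (Φ i))) (v i)
        (fun _ => 1) (wn Y σ s) k (C * exp (-d * s))) ∧
      ∀ k, ∃ C, ∀ᶠ i in l, ∀ s, T + 2 ≤ s → Cl D.Z (c i) (cy (mv β (W i) (Φ i))) (v i)
        (fun _ => 1) (wn Y σ s) k (C * exp (-d * s)) := by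
  refine Dec35.outF (ζ := fun _ => 1) hβ.ok hσ hd (sm_slice_fst hβ.adm.adm.ok.sp 0)
    (hc.mono fun i ⟨a1, a2, a3, u, a4⟩ => ⟨a1, a3.adm, fun k => ?_, u, a4⟩) hw fun k => ?_
  · obtain ⟨η, p, B, h⟩ := dec_mv (r := r) a3 (h0 _ a3) hσ k
    obtain ⟨T', h1⟩ := a4 ⌈η⁻¹⌉₊ η p
    exact ⟨B, _, max T T' + η⁻¹, h _ T _ (by simp) a1 a2 fun s hs => ⟨u, 1, h1.mono (win_op _ _)
      (win_end hσ (by linarith [le_max_right T T'])) le_rfl le_rfl⟩⟩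
  obtain ⟨η, p, B, h⟩ := dec_mv (r := r) hβ (h0 _ hβ) hσ k
  obtain ⟨B', -, b1, b2⟩ := Cay24.lb_cy hβ.adm k
  obtain ⟨T', h1⟩ := hn η p
  set a := max T T' + η⁻¹
  obtain ⟨C, h2⟩ := hb k a
  refine ⟨max B B', (|C| + 1) * exp (d * a), ?_⟩
  filter_upwards [hc, h1, h2] with i ⟨a1, a2, _⟩ a4 a5 s hs
  have e : 0 < exp (d * a) * exp (-d * s) := by positivity
  rcases le_total s a with e1 | e1
  · obtain ⟨u, ξ, h⟩ := a5 s ⟨hs, e1⟩
    have : 1 ≤ exp (d * a) * exp (-d * s) := by rw [← exp_add]; exact one_le_exp (by nlinarith)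
    exact ⟨β.W, β.Φ, u, ξ, hβ.adm, fun a => (b1 a).mono (le_max_right _ _),
      b2.mono (le_max_right _ _), h.mono h.op Subset.rfl le_rfl (by
        nlinarith [le_abs_self C, abs_nonneg C])⟩
  · obtain ⟨W', Φ', u, ξ, k1, k2, k3, h⟩ := h (c i) T a (by simp [a]) a1 a2 (fun s hs => a4 s (by
      linarith [le_max_right T T', inv_pos.2 p])) s e1
    exact ⟨W', Φ', u, ξ, k1, fun a => (k2 a).mono (le_max_left _ _), k3.mono (le_max_left _ _),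
      h.mono h.op Subset.rfl le_rfl (by nlinarith [abs_nonneg C])⟩

/-- a window close to `β` and converging to `γ` -/
theorem quo (hβ : D.Adm β) (hγ : D.Adm γ) [l.NeBot] {c : Cfg (Y × ℝ) (Option κ) lam r}
    {s : α → ℝ} {L η : ℝ} {k : ℕ} (p : 0 < η) (h0 : ∀ᶠ n in l, AdmOn c D.B D.G (win Y (s n) L))
    {u' : Y × ℝ → CL c.m.V γ.m.V} {ζ' : Circle}
    (H' : CZ D.Z l (fun n => win Y (s n) L) k (fun _ => c) (cy γ) (fun _ => u') fun _ _ => ζ')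
    (H : ∀ᶠ n in l, ∃ u ξ, Cl D.Z c (cy β) u (fun _ => ξ) (win Y (s n) L) k η) :
    ∃ g ξ, Cl D.Z (cy γ) (cy β) g (fun _ => ξ) (win Y 0 L) k (2 * η) := by
  obtain ⟨w, H⟩ := skolem.1 (H.mono fun n ⟨u, ξ, h⟩ =>
    (⟨(u, ξ), h⟩ : ∃ w : (Y × ℝ → CL c.m.V β.m.V) × Circle,
      Cl D.Z c (cy β) w.1 (fun _ => w.2) (win Y (s n) L) k η))
  have h1 := fx_cy (k := k) hγ H'.op
  have h2 := fx_cy (k := k) hβ H'.op
  have ht : ∀ᶠ n in l, Iso0 (IC I3) (cy γ).m (cy β).m (win Y (s n) L)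
      fun x => (w n).1 x ∘L ad (u' x) := by
    filter_upwards [H'.iso, H, h0, h1.adm] with n a b d e using (a.symm d.ok e.ok).trans b.iso
  have A : ∀ a, BB D.Z.toPre l (fun n => win Y (s n) L) k fun n => dA D.Z c (cy β) (w n).1 a :=
    fun a => ⟨η, H.mono fun _ h => ⟨h.op, h.A a⟩⟩
  have cq : ∀ a, ∀ᶠ n in l, ∀ x ∈ win Y (s n) L,
      cov D.Z (cy γ) (cy β) (fun x => (w n).1 x ∘L ad (u' x)) a x = _ := fun a => by
    filter_upwards [H'.iso, H, h0, h1.adm] with n a' b d e x hx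
      using cov_quot (G := D.G) a' b.iso b.op d e hx a
  have hb := (bb_of_cov H'.op ht h1 h2 fun j hj hb a => ((((A a).of_le hj).comp hb).add
    (hb.comp ((H'.A a).of_le hj).ad.bb)).congr (cq a)).of_le k.le_succ
  have z1 := fun a => ((hb.compZ (H'.A a).ad).comp hb.ad) η p
  have z2 := (((bb_circ H'.op fun n => (w n).2 / ζ').clm (csB β.m.J)).appZ (hb.appZ H'.P)) η p
  obtain ⟨n, a1, a2, a3, a4, a5, a6⟩ := (H.and (ht.and ((eventually_all.2 cq).and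
    ((eventually_all.2 z1).and (z2.and H'.iso))))).exists
  have : Cl D.Z (cy γ) (cy β) (fun x => (w n).1 x ∘L ad (u' x)) (fun _ => (w n).2 / ζ')
      (win Y (s n) L) k (2 * η) := by
    refine ⟨a1.op, a2, fun a => (((a1.A a).add a1.op (a4 a).2).congr a1.op fun x hx => ?_).mono
      (two_mul η).ge, ((a1.P.sub' a1.op a5.2).congr a1.op fun x hx =>
        dP_quot hβ.adm.ok.Jsq a6 a1.iso a2 hx _ _).mono (by rw [abs_of_pos p, two_mul])⟩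
    rw [dA, a3 a x hx, ← ad_trn, ContinuousLinearMap.add_comp, ContinuousLinearMap.comp_assoc,
      (a2.iso x hx).tgt, dA, ContinuousLinearMap.comp_assoc, ← ad_trn,
      (a1.iso.iso x hx).symm.idem, ad_trn]
    rfl
  have k := this.sh (s n)
  rw [win_tr (zero_add _).symm] at k
  exact ⟨_, _, k⟩

/-- **the limits are close to the limit of the limit** -/
theorem near_lim (hσ : σ = 1 ∨ σ = -1) (N : NbH D) {b : ℕ} (hp : Rf65.PY D b) (hβ : Bs D β)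
    {c : α → Cfg (Y × ℝ) (Option κ) lam r} {γ : α → YC Y κ lam} (hn : NrY D σ l c β)
    (hc : ∀ᶠ i in l, AdmOn (c i) D.B D.G (hf Y σ T) ∧ Bs D (γ i) ∧ ∃ ζ, LimY D σ (c i) (γ i) ζ)
    {ε : ℝ} (hε : 0 < ε) : ∀ᶠ i in l, ∃ h, Har D β h ∧ (∀ k y, ‖h k y‖ ≤ ε) ∧
      D.Eqv (γ i) (bh β h 0) := by
  obtain ⟨η, p, N⟩ := N b hp β hβ ε hε
  have p' : 0 < min (η / 2) 7⁻¹ := by positivity
  obtain ⟨T', hn⟩ := hn _ p'
  filter_upwards [hn, hc] with i h1 ⟨h2, h3, ζ, u, h4⟩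
  obtain ⟨g, ξ, h⟩ := quo (l := atTop) (s := fun s => σ * s) (L := 7) (k := ⌈η⁻¹⌉₊) hβ.adm h3.adm
    (half_pos p) ((eventually_ge_atTop (T + 7)).mono fun s hs => h2.mono (win_end hσ hs))
    (fun ε hε => let ⟨T₁, k⟩ := h4 _ ε hε; (eventually_ge_atTop (T₁ + 7)).mono fun s hs =>
      k.mono (win_op _ _) (win_end hσ hs) le_rfl le_rfl)
    ((eventually_ge_atTop T').mono fun s hs => let ⟨u, ξ, k⟩ := h1 s hs; ⟨u, ξ, Cl.mono k
      (win_op _ _) (win_sub (by simpa using (le_inv_comm₀ (by norm_num) p').2 (min_le_right _ _)))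
      (Nat.ceil_mono (inv_anti₀ p' ((min_le_left _ _).trans (half_le_self p.le)))) (min_le_left _ _)⟩)
  exact N _ g ξ h3 (h.mono h.op Subset.rfl le_rfl (by linarith))

theorem eqv_trans {β'' : YC Y κ lam} (h : Bs D β) (h' : Bs D β') (h'' : Bs D β'')
    (e : D.Eqv β β') (e' : D.Eqv β' β'') : D.Eqv β β'' :=
  IsoOn.trans h.ok.B h.ok.G isOpen_univ (ad0 h.adm.adm) (ad0 h'.adm.adm) (ad0 h''.adm.adm) e e'

theorem har_zero : Har D β 0 :=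
  have n : ∀ a, Wz78.nab I3 D.F.e (A0 β) a (0 : Y → β.m.A) = 0 := fun a => funext fun y => by
    simp [Wz78.nab, Pi.zero_def, Sob92.dv_const]
  ⟨Pnt66.fo_zero, fun j k y => by simp [Rdc90.ed, n], fun y => by simp [Rdc90.dv1, n]⟩

theorem bs_har {b : ℕ} (hp : Rf65.PY D b) (hβ : Bs D β) {η : κ → Y → β.m.A} (h : Har D β η) :
    Bs D (bh β η 0) :=
  let k := Mon62.flt_har hβ hp h
  ⟨hβ.ok, hβ.dim, k.1, fun y => (add_zero _).trans (hβ.zr y), k.2⟩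

section lin
variable {η : κ → Y → β.m.A} {S : α → Set (Y × ℝ)} {k : ℕ}

theorem W_lin (t : ℝ) (a : Option κ) (x : Y × ℝ) :
    (bh β (t • η) 0).W a x.1 = β.W a x.1 + t • opL (Rd78.up β η x a) := by
  cases a with
  | none =>
    show β.W none x.1 + opL 0 = β.W none x.1 + t • opL 0
    rw [map_zero, smul_zero]
  | some a =>
    show β.W _ x.1 + opL (t • η a x.1) = β.W _ x.1 + t • opL (η a x.1)
    rw [map_smul]

theorem bb_up (hη : Fo D β η) (hS : ∀ᶠ n in l, IsOpen (S n)) (a : Option κ) :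
    BB D.Z.toPre l S k fun _ x => opL (Rd78.up β η x a) := by
  refine BB.clm opL ?_
  cases a
  exacts [BB.const hS 0, BB.fst hS k (hη.sm _)]

theorem dA_mv {W W' : β.m.Cn} {Φ Φ' : Y → β.m.V} {a : Option κ} {x : Y × ℝ}
    (h : D.Z.D a (fun x => β.m.p x.1) x + W' a x.1 ∘L β.m.p x.1 - β.m.p x.1 ∘L W' a x.1 = 0) :
    dA D.Z (cy (mv β W Φ)) (cy (mv β W' Φ')) (fun x => β.m.p x.1) a x =
      (β.m.p x.1 ∘L (W' a x.1 - W a x.1)) ∘L ad (β.m.p x.1) := by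
  show (D.Z.D a (fun x => β.m.p x.1) x + W' a x.1 ∘L β.m.p x.1 - β.m.p x.1 ∘L W a x.1) ∘L
    trn (β.m.p x.1) = _
  rw [sub_eq_zero.1 h, ContinuousLinearMap.comp_sub, ad_trn]

/-- the line of flat connections is continuous -/
theorem cz_lin (hβ : D.Adm β) (hη : Fo D β η) (t₀ : ℝ) {O : Set (Y × ℝ)} (hO : IsOpen O) :
    CZ D.Z (𝓝 t₀) (fun _ => O) k (fun t => cy (bh β (t • η) 0)) (cy (bh β (t₀ • η) 0))
      (fun _ x => β.m.p x.1) fun _ _ => 1 := by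
  have o : ∀ᶠ _ in 𝓝 t₀, IsOpen O := .of_forall fun _ => hO
  have a := fun t => (Tmp64.admOn_univ.2 (Pnt66.adm_mv hβ hη t).adm).mono (subset_univ O)
  have e := fun t => Tmp64.Eq0.refl (a t)
  have p := ((fx_cy (k := k) hβ o).p).of_le k.le_succ
  refine CZ.mk (.of_forall fun t => (e t).iso) (fun b => ((p.compZ ((ZZ.consts o
    (c := fun t => t₀ - t) (tendsto_sub_nhds_zero_iff.2 tendsto_id |>.neg.congr' (.of_forall
      fun t => neg_sub _ _) |>.trans (by simp))).smul (bb_up hη o b))).comp p.ad).congr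
      (.of_forall fun t x hx => ?_)) ((ZZ.zero o).congr (.of_forall fun t x hx => ?_))
  · refine (dA_mv (W := (bh β (t • η) 0).W) (W' := (bh β (t₀ • η) 0).W) ((e t₀).par x hx b)).trans
      (congrArg (fun T : En (Fin β.m.N) => (β.m.p x.1 ∘L T) ∘L ad (β.m.p x.1)) ?_)
    rw [W_lin, W_lin]
    exact (add_sub_add_left_eq_sub _ _ _).trans (sub_smul _ _ _).symm
  · exact sub_eq_zero.2 ((cs_one _ _).trans ((a t).pΦ hx))

theorem eqv_closed (hγ : Bs D γ) {b : ℕ} (hp : Rf65.PY D b) (hβ : Bs D β) (hη : Har D β η)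
    {t₀ : ℝ} (h : ∀ ε > 0, ∃ t, |t - t₀| ≤ ε ∧ D.Eqv γ (bh β (t • η) 0)) :
    D.Eqv γ (bh β (t₀ • η) 0) := by_contra fun k => by
  have s := fun t => bs_har hp hβ (Mon62.har_smul hη t)
  obtain ⟨ε, p, k⟩ := iso_eta hβ.ok hγ.adm (s t₀).adm k one_pos
  obtain ⟨ρ, p', k'⟩ := Metric.eventually_nhds_iff.1
    (cz_lin (k := ⌈ε⁻¹⌉₊) hβ.adm hη.toFo t₀ (win_op 0 1) ε p)
  obtain ⟨t, h1, h2⟩ := h _ (half_pos p')
  obtain ⟨g, ξ, h3⟩ := Pnt66.eqv_symm hβ.ok hγ.adm (s t).adm h2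
  exact k _ _ 0 _ _ _ _ ((Tmp64.admOn_univ.2 (s t).adm.adm).mono (subset_univ _))
    (cl_of_ceq hβ.ok (s t).adm.adm hγ.adm.adm h3 (win_op _ _) p.le)
    (k' (h1.trans_lt (half_lt_self p')))

end lin

theorem exists_tend {P : α → ℝ → Prop} {x₀ : ℝ} (h1 : ∀ ε > 0, ∀ᶠ i in l, ∃ x, |x - x₀| ≤ ε ∧ P i x)
    (h2 : ∀ᶠ i in l, (∀ ε > 0, ∃ x, |x - x₀| ≤ ε ∧ P i x) → P i x₀) :
    ∃ f, Tendsto f l (𝓝 x₀) ∧ ∀ᶠ i in l, P i (f i) := by
  have : ∀ᶠ i in l, ∃ x, P i x ∧ ∀ y, P i y → |x - x₀| ≤ 2 * |y - x₀| := by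
    filter_upwards [h1 1 one_pos, h2] with i ⟨x, _, hx⟩ h
    by_cases e : P i x₀
    · exact ⟨x₀, e, fun y _ => by simp⟩
    obtain ⟨ε, p, k⟩ : ∃ ε > 0, ∀ x, P i x → ε < |x - x₀| := by
      by_contra k
      push Not at k
      exact e (h fun ε p => let ⟨x, a, b⟩ := k ε p; ⟨x, b, a⟩)
    have ne : ((fun y => |y - x₀|) '' {y | P i y}).Nonempty := ⟨_, x, hx, rfl⟩
    have lo := le_csInf ne (forall_mem_image.2 fun y hy => (k y hy).le)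
    obtain ⟨_, ⟨x, a, rfl⟩, b⟩ := Real.lt_sInf_add_pos ne p
    refine ⟨x, a, fun y hy => ?_⟩
    have := csInf_le ⟨ε, forall_mem_image.2 fun y hy => (k y hy).le⟩
      (mem_image_of_mem (fun y => |y - x₀|) (show y ∈ {y | P i y} from hy))
    exact b.le.trans ((add_le_add this (lo.trans this)).trans (two_mul _).ge)
  obtain ⟨f, hf⟩ := skolem.1 this
  refine ⟨f, Metric.tendsto_nhds.2 fun ε p => ?_, hf.mono fun _ h => h.1⟩
  filter_upwards [hf, h1 (ε / 4) (by positivity)] with i a ⟨x, b, e⟩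
  exact (a.2 x e).trans_lt (by linarith)

section id
variable (hσ : σ = 1 ∨ σ = -1) (N : NbH D) {b : ℕ} (hp : Rf65.PY D b)
  (w1 : ∀ β, Bs D β → Rf65.dh D β = b * Rf65.dz D β)
  (w2 : ∀ β β', Bs D β → Bs D β' → D.Eqv β β' → Rf65.dz D β = Rf65.dz D β')
  {c : α → Cfg (Y × ℝ) (Option κ) lam r} {γ : α → YC Y κ lam}
  (hc : ∀ᶠ i in l, AdmOn (c i) D.B D.G (hf Y σ T) ∧ Bs D (γ i) ∧ ∃ ζ, LimY D σ (c i) (γ i) ζ)
  (hβ : Bs D β)
include hσ N hp w1 w2 hc hβ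

/-- fixed limits do not move -/
theorem fix_lim (F : Tl47.IdF D) (hn : NrY D σ l c β)
    (h : ∀ᶠ i in l, Rf65.dh D (γ i) = 0 ∨ Rf65.dz D (γ i) = 3) : ∀ᶠ i in l, D.Eqv (γ i) β := by
  obtain ⟨ε, p, F⟩ := F b hp β hβ
  filter_upwards [near_lim hσ N hp hβ hn hc p, hc, h] with i ⟨f, a1, a2, a3⟩ ⟨_, a4, _⟩ a5
  have e := w2 _ _ a4 (bs_har hp hβ a1) a3
  rw [w1 _ a4, e, mul_eq_zero] at a5
  rwa [F f a1 a2 (by tauto), Rd78.bh_zero] at a3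

/-- moving limits move along the line -/
theorem mov_lim (F : Tl47.IdM D) {η : κ → Y → β.m.A} (hη : Har D β η) (h0 : η ≠ 0) {t₀ : ℝ}
    {γ₀ : YC Y κ lam} (b0 : Bs D γ₀) (e0 : D.Eqv γ₀ (bh β (t₀ • η) 0))
    (h : Rf65.dh D γ₀ = 1 ∧ Rf65.dz D γ₀ = 1) (hn : NrY D σ l c γ₀) :
    ∃ f, Tendsto f l (𝓝 t₀) ∧ ∀ᶠ i in l, D.Eqv (γ i) (bh β (f i • η) 0) := by
  have s := bs_har hp hβ (Mon62.har_smul hη t₀)
  obtain rfl : b = 1 := by simpa [h.1, h.2] using (w1 _ b0).symm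
  refine exists_tend (fun ε p => ?_) (hc.mono fun i a => eqv_closed a.2.1 hp hβ hη)
  obtain ⟨ρ, p', F⟩ := F hp β η t₀ hβ hη h0 ((w2 _ _ b0 s e0).symm.trans h.2) ε p
  filter_upwards [near_lim hσ N hp s (hn.eqv b0 s e0) hc p'] with i ⟨f, a1, a2, a3⟩
  obtain ⟨t, a4, a5⟩ := F f a1 a2
  exact ⟨t, a4, a5 ▸ a3⟩

end id

/-- local bounds at bounded height -/
theorem bd_ht (hσ : σ = 1 ∨ σ = -1) (hβ : D.Adm β) {c : α → Cfg (Y × ℝ) (Option κ) lam r}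
    {c₀ : Cfg (Y × ℝ) (Option κ) lam r} {u : ∀ i, Y × ℝ → CL (c i).m.V c₀.m.V} {ζ : α → Circle}
    {g : Y × ℝ → CL c₀.m.V β.m.V} (h0 : AdmOn c₀ D.B D.G (hf Y σ T))
    (hi : Iso0 (IC I3) c₀.m (cy β).m (hf Y σ T) g) (H : ∀ k m L, T + (L + 1) ≤ m →
      CZ D.Z l (fun _ => win Y (σ * m) L) k c c₀ u fun i _ => ζ i) (k : ℕ) (T' : ℝ) :
    ∃ C, ∀ᶠ i in l, ∀ s ∈ Icc (T + 2) T',
      ∃ u ξ, Cl D.Z (c i) (cy β) u (fun _ => ξ) (wn Y σ s) k C := by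
  obtain ⟨L, hL⟩ : ∃ L, T' ≤ T + 2 * L := ⟨(T' - T) / 2, by linarith⟩
  have H := H k _ L le_rfl
  set m := T + (L + 1)
  have s1 : win Y (σ * m) (L + 1) ⊆ hf Y σ T := win_end hσ le_rfl
  have s2 : win Y (σ * m) L ⊆ hf Y σ T := win_end hσ (by simp [m])
  have fx : ∀ {N : Type} [NormedAddCommGroup N] [NormedSpace ℝ N] {φ : Y × ℝ → N},
      (∀ x ∈ hf Y σ T, FSm (IC I3) φ x) → BB D.Z.toPre l (fun _ => win Y (σ * m) L) k fun _ => φ :=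
    BB.fixed (isCompact_univ.prod (isCompact_Icc (a := σ * m - L) (b := σ * m + L)))
      ((prod_mono_right (Icc_subset_Ioo (by linarith) (by linarith))).trans s1)
      (.of_forall fun _ => ⟨win_op _ _, prod_mono_right Ioo_subset_Icc_self⟩) k
  have hg := fx hi.su
  choose A hA using fun a => (fx fun x hx => fsm_dA (F := D.Z) (hi.su x hx) (h0.conn.sm a x hx)
    (hβ.adm.conn.cc.sm a x)).add (hg.compZ ((H.A a).comp hg.ad)).bb
  obtain ⟨C, hC⟩ := (fx (N := β.m.V) (φ := dP c₀ (cy β) g 1) fun x hx => ((contMDiffAt_const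
    (c := csB β.m.J (1 : Circle))).clm_apply ((hi.su x hx).clm_apply (h0.sm x hx))).sub
      (hβ.adm.sm x)).add ((hg.appZ H.P).clm (csB β.m.J (1 : Circle))).bb
  obtain ⟨C', hC'⟩ := (finite_range A).bddAbove
  refine ⟨max C C', ?_⟩
  filter_upwards [H.iso, eventually_all.2 hA, hC] with i a1 a2 a3 s hs
  refine ⟨fun x => g x ∘L u i x, 1 * ζ i, Cl.mono (O := win Y (σ * m) L) ⟨win_op _ _,
    a1.trans (hi.mono s2), fun a => ((a2 a).2.congr a3.1 fun x hx =>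
      dA_comp a1 (hi.mono s2) hx a).mono ((hC' ⟨a, rfl⟩).trans (le_max_right _ _)),
    (a3.2.congr a3.1 fun x hx => dP_comp hβ.adm.ok.Jsq (hi.mono s2) hx _ _).mono (le_max_left _ _)⟩
    (win_op _ _) (win_sub ?_) le_rfl le_rfl⟩
  have : |σ * s - σ * m| = |s - m| := by
    rw [← mul_sub, abs_mul]; rcases hσ with rfl | rfl <;> simp
  rw [this, ← le_sub_iff_add_le, abs_le]
  constructor <;> linarith [hs.1, hs.2]

/-- **the tail of one end** -/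
theorem endY (hσ : σ = 1 ∨ σ = -1) (hd : 0 < d) {b : ℕ} (hp : Rf65.PY D b)
    (h0 : ∀ β, Bs D β → DR D β d) (hβ : Bs D β) {η : κ → Y → β.m.A} (hη : Har D β η) {f : α → ℝ}
    {t₀ : ℝ} (ht : Tendsto f l (𝓝 t₀)) {c : α → Cfg (Y × ℝ) (Option κ) lam r} {γ : α → YC Y κ lam}
    (hc : ∀ᶠ i in l, AdmOn (c i) D.B D.G (hf Y σ T) ∧ Bs D (γ i) ∧ ∃ ζ, LimY D σ (c i) (γ i) ζ)
    (he : ∀ᶠ i in l, Eqs D (c i) (hf Y σ T) ∧ D.Eqv (γ i) (bh β (f i • η) 0))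
    {γ₀ : YC Y κ lam} (b0 : Bs D γ₀) (e0 : D.Eqv γ₀ (bh β (t₀ • η) 0)) (hn : NrY D σ l c γ₀)
    {c₀ : Cfg (Y × ℝ) (Option κ) lam r} {u : ∀ i, Y × ℝ → CL (c i).m.V c₀.m.V} {ζ : α → Circle}
    (a0 : AdmOn c₀ D.B D.G (hf Y σ T)) {ζ₀ : Circle} (l0 : LimY D σ c₀ γ₀ ζ₀)
    (H : ∀ k m L, T + (L + 1) ≤ m → CZ D.Z l (fun _ => win Y (σ * m) L) k c c₀ u fun i _ => ζ i) :
    ∃ R, T + 1 ≤ R ∧ ∃ v : ∀ i, Y × ℝ → CL (c i).m.V β.m.V,
      (∀ᶠ i in l, ∀ k, ∃ C, ∀ s, R ≤ s → D.Cls (c i) (bh β (f i • η) 0) (v i) 1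
        (Ioo (σ * s - 1) (σ * s + 1)) k (C * exp (-d * s))) ∧
      ∀ k, ∃ C, ∀ᶠ i in l, ∀ s, R ≤ s → D.Cls (c i) (bh β (f i • η) 0) (v i) 1
        (Ioo (σ * s - 1) (σ * s + 1)) k (C * exp (-d * s)) := by
  have s := fun t => bs_har hp hβ (Mon62.har_smul hη t)
  obtain ⟨g, hg⟩ := l0.eqv b0 (s t₀) e0
  obtain ⟨T₀, hg⟩ := hg 0 1 one_pos
  have s1 := hf_sub (Y := Y) (σ := σ) (le_max_left T T₀)
  obtain ⟨v, h1, h2⟩ := tailY (T := max T T₀) (c := c) (W := fun i => (bh β (f i • η) 0).W)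
    (Φ := fun i => (bh β (f i • η) 0).Φ) hσ hd (s t₀) h0
    ((hc.and he).mono fun i ⟨⟨a1, a2, _, a3⟩, a4, a5⟩ =>
      ⟨a1.mono s1, fun x hx => a4 x (s1 hx), s _, a3.eqv a2 (s _) a5⟩) (fun k => by
      have o : ∀ᶠ _ in l, IsOpen (univ : Set (Y × ℝ)) := .of_forall fun _ => isOpen_univ
      choose A hA using fun a => ((fx_cy (k := k) hβ.adm o).W a).add ((BB.consts o
        (ht.norm.eventually (ge_mem_nhds (lt_add_one _)))).smul (bb_up hη.toFo o a))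
      obtain ⟨C, hC⟩ := (finite_range A).bddAbove
      exact ⟨C, (eventually_all.2 hA).mono fun i h a =>
        ((h a).2.congr isOpen_univ fun x _ => W_lin _ a x).mono (hC ⟨a, rfl⟩)⟩)
    (hn.eqv b0 (s t₀) e0) (bd_ht hσ (s t₀).adm (a0.mono s1) (hg.iso.mono (hf_sub (le_max_right _ _)))
      fun k m L h => H k m L (by linarith [le_max_left T T₀]))
  have m := le_max_left T T₀
  exact ⟨max T T₀ + 2, by linarith, v, (h1.and hc).mono fun i a k => (a.1 k).imp fun C b t ht =>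
    Cl.cls (s _).adm isOpen_Ioo (a.2.1.mono (wn_sub hσ (by linarith))) (b t ht),
    fun k => (h2 k).imp fun C a => (a.and hc).mono fun i a t ht =>
      Cl.cls (s _).adm isOpen_Ioo (a.2.1.mono (wn_sub hσ (by linarith))) (a.1 t ht)⟩

end Crest.Agent.X212.Pte3
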