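import Crest.Agent.X212.Pte3.Tl1
import Crest.Agent.X212.Spl54.Fr

/-! Row 212, PT-TLP: the ends of solutions on a part, seen on half cylinders. -/

set_option autoImplicit false
set_option linter.unusedSectionVars false
noncomputable section
open scoped Manifold ContDiff Topology InnerProductSpace
open MeasureTheory Set Function Filter Real

namespace Crest.Agent.X212.Pte3
open An Nd18 Cyf70 Rdc90 Bki64 Neck67 Eqv71 Pj41 Cmp73
open Tmp64 (AdmOn admOn_univ)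
open Wz78 (dir)

section gen
variable {E : Type} [NormedAddCommGroup E] [NormedSpace ℝ E] [FiniteDimensional ℝ E]
  [MeasurableSpace E] [BorelSpace E]
  {HM : Type} [TopologicalSpace HM] {I : ModelWithCorners ℝ E HM} [I.Boundaryless]
  {M : Type} [TopologicalSpace M] [ChartedSpace HM M] [IsManifold I ∞ M]
  [MeasurableSpace M] [T2Space M] [BorelSpace M] [SecondCountableTopology M]
  {E3 : Type} [NormedAddCommGroup E3] [NormedSpace ℝ E3] [FiniteDimensional ℝ E3]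
  [MeasurableSpace E3] [BorelSpace E3]
  {H3 : Type} [TopologicalSpace H3] {I3 : ModelWithCorners ℝ E3 H3} [I3.Boundaryless]
  {Y : Type} [TopologicalSpace Y] [ChartedSpace H3 Y] [IsManifold I3 ∞ Y] [T2Space Y]
  [MeasurableSpace Y] [BorelSpace Y] [SecondCountableTopology Y] [CompactSpace Y]
  {κ : Type} [Fintype κ] {lam : Type} [Fintype lam] {D : YD I3 Y κ lam} {β : YC Y κ lam}
  {r k : ℕ} {σ T : ℝ} {α : Type} {l : Filter α} {B : Base M (Option κ) lam}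
  {G : Geo I M (Option κ) lam} (K : Nk D B G) {c : Cfg M (Option κ) lam r} {S : Set ℝ}

theorem admOn_nk (h : c.Adm B G) (hS : S ⊆ K.J) : AdmOn (K.pb c) D.B D.G (univ ×ˢ S) :=
  (((nk_gRel K).admOn_iff (c := c)).2 ((admOn_univ.2 h).mono (subset_univ _))).mono
    fun _ hz => K.mem_src.2 (hS hz.2)

theorem eqs_nk (e : S ⊆ K.J) (h : ∀ z ∈ K.ψ.target, K.tm z ∈ S → dir I G.F.e c.m.ρ c.W c.Φ z = 0 ∧
    c.m.p2 B z (c.m.Fg G.F c.W z) = c.m.mu B z (c.Φ z) (c.Φ z)) : Eqs D (K.pb c) (univ ×ˢ S) :=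
  fun z hz => by
  have hs := K.mem_src.2 (e hz.2)
  obtain ⟨a, b⟩ := h (K.ψ z) (K.ψ.map_source hs) (K.tm_ψ z hs ▸ hz.2)
  have e1 : (K.pb c).m.Fg D.Z (K.pb c).W z = c.m.Fg G.F c.W (K.ψ z) := K.rel.Fg hs c.W
  have e2 : D.B.sd z = B.sd (K.ψ z) := by
    funext s t
    simp only [Base.sd, Base.st, Base.a2, K.o _ _ _ _ z hs, K.P _ _ z hs]
  have e3 : (K.pb c).m.p2 D.B z = c.m.p2 B (K.ψ z) := congrArg (idx · _) e2
  refine ⟨(K.rel.dir hs (fun _ => rfl) (fun _ => rfl) (.of_forall fun _ => rfl)).trans a, ?_⟩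
  rw [Md.mu, e1, e3]
  exact b

theorem limY_nk (hβ : D.Adm β) (h : c.Adm B G) {L : Filter ℝ}
    (hL : ∀ S ∈ L, ∃ T, {s | T < σ * s} ⊆ S) {ζ : Circle} (H : K.Lim c β ζ L) :
    LimY D σ (K.pb c) β ζ :=
  H.imp fun _ H k η p => let ⟨S, a, b, e⟩ := H k η p; let ⟨T, f⟩ := hL S a
    ⟨T, (cl_of_cls hβ (admOn_nk K h b) e).mono hf_op (prod_mono_right f) le_rfl le_rfl⟩

theorem cl_nk {O : Set (Y × ℝ)} (hO : IsOpen O) (hs : O ⊆ K.ψ.source) {c' : Cfg M (Option κ) lam r}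
    {χ : Y × ℝ → M} (e : ∀ z ∈ O, χ z = K.ψ z) {u : M → CL c.m.V c'.m.V} {ζ : Circle} {η : ℝ}
    (h : Cl G.F c c' u (fun _ => ζ) (K.ψ '' O) k η) :
    Cl D.Z (pb χ c) (K.pb c') (fun z => u (K.ψ z)) (fun _ => ζ) O k η := by
  have f := K.rel.mono hO hs
  refine ⟨hO, ⟨fun z hz => f.sm hz (h.iso.su _ ⟨z, hz, rfl⟩), fun z hz => ?_,
    fun z hz => h.iso.J _ ⟨z, hz, rfl⟩, fun z hz a => ?_, fun z hz s => ?_⟩,
    fun a => (End14.lb_iff f fun z hz => ?_).2 (h.A a), (End14.lb_iff f fun z hz => ?_).2 h.P⟩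
  · show CIso _ (c.m.p (χ z)) _
    rw [e z hz]; exact h.iso.iso _ ⟨z, hz, rfl⟩
  · show _ = _ ∘L c.m.ρ a (χ z)
    rw [e z hz]; exact h.iso.ρ _ ⟨z, hz, rfl⟩ a
  · show _ = _ ∘L c.m.j (χ z) s
    rw [e z hz]; exact h.iso.j _ ⟨z, hz, rfl⟩ s
  · show (D.Z.D a (fun z => u (K.ψ z)) z + c'.W a (K.ψ z) ∘L u (K.ψ z) -
      u (K.ψ z) ∘L c.W a (χ z)) ∘L trn (u (K.ψ z)) = _
    rw [e z hz, f.D hz a (.of_forall fun _ => rfl)]; rfl
  · show cs _ ζ (u (K.ψ z) (c.Φ (χ z))) - _ = _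
    rw [e z hz]; rfl

/-- local convergence on the windows of a neck -/
theorem cz_nk {O : Set M} {e : α → Option κ → Π x : M, TangentSpace I x}
    {c : α → Cfg M (Option κ) lam r} {c₀ : Cfg M (Option κ) lam r}
    {u : ∀ i, M → CL (c i).m.V c₀.m.V} {ζ : α → Circle} (hu : ULim I B l O e c c₀ u ζ)
    (hO : IsOpen O) (hK : K.ψ.target ⊆ O) (h0 : c₀.Adm B G) {ψ : α → Y × ℝ → M}
    (hc : ∀ᶠ i in l, (c i).m.OK I B ∧ (∀ x ∈ K.ψ.target, ∀ a, e i a x = G.F.e a x) ∧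
      ∀ z ∈ K.ψ.source, ψ i z = K.ψ z) {s L : ℝ} (hs : Icc (s - L) (s + L) ⊆ K.J) (k : ℕ) :
    CZ D.Z l (fun _ => win Y s L) k (fun i => pb (ψ i) (c i)) (K.pb c₀) (fun i z => u i (K.ψ z))
      fun i _ => ζ i := by
  have s1 : univ ×ˢ Icc (s - L) (s + L) ⊆ K.ψ.source := fun z hz => K.mem_src.2 (hs hz.2)
  have s2 : win Y s L ⊆ univ ×ˢ Icc (s - L) (s + L) := prod_mono_right Ioo_subset_Icc_self
  have s3 : K.ψ '' (univ ×ˢ Icc (s - L) (s + L)) ⊆ K.ψ.target :=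
    forall_mem_image.2 fun z hz => K.ψ.map_source (s1 hz)
  have hC := (isCompact_univ.prod isCompact_Icc).image_of_continuousOn (K.ψ.continuousOn.mono s1)
  have o := (K.rel.mono (win_op s L) (s2.trans s1)).isOpen_image
  have z1 : ∀ {V : Type} [NormedAddCommGroup V] [NormedSpace ℝ V] [FiniteDimensional ℝ V]
      {f : α → M → V}, Cv I l O f (fun _ => 0) →
      ZZ G.F.toPre l (fun _ => K.ψ '' win Y s L) k f :=
    ZZ.of_cv hO hC (s3.trans hK) o (image_mono s2) k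
  have H : CZ G.F l (fun _ => K.ψ '' win Y s L) k c c₀ u fun i _ => ζ i := by
    refine CZ.mk ((ev_compact hC fun x hx => End14.ulim_iso hu (hc.mono fun _ k => k.1) h0.ok
      (hK (s3 hx))).mono fun i hi => End14.iso0_pt fun x hx => hi x (image_mono s2 hx))
      (fun a => (z1 (hu.A a)).congr (hc.mono fun i hi x hx => ?_))
      (z1 ((hu.Φ.sub (Cv.fixed' h0.sm)).congr' hO (.of_forall fun _ _ _ => rfl)
        fun x _ => (sub_self _).symm))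
    simp only [dA, cov, Pre.D_def, Sob92.dv, hi.2.1 x (s3 (image_mono s2 hx)) a]
  exact fun ε p => ((H ε p).and hc).mono fun i h =>
    cl_nk K (win_op _ _) (s2.trans s1) (fun z hz => h.2.2.2 z (s1 (s2 hz))) h.1

variable (D) in
/-- the data of an end on the half cylinder -/
structure EndD (σ T : ℝ) (l : Filter α) (c : α → Cfg (Y × ℝ) (Option κ) lam r)
    (γ : α → YC Y κ lam) (c₀ : Cfg (Y × ℝ) (Option κ) lam r) (γ₀ : YC Y κ lam) : Prop where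
  hc : ∀ᶠ i in l, AdmOn (c i) D.B D.G (hf Y σ T) ∧ Bs D (γ i) ∧ ∃ ζ, LimY D σ (c i) (γ i) ζ
  he : ∀ᶠ i in l, Eqs D (c i) (hf Y σ T)
  b0 : Bs D γ₀
  hn : NrY D σ l c γ₀
  a0 : AdmOn c₀ D.B D.G (hf Y σ T)
  l0 : ∃ ζ, LimY D σ c₀ γ₀ ζ
  cz : ∃ (u : ∀ i, Y × ℝ → CL (c i).m.V c₀.m.V) (ζ : α → Circle), ∀ k m L, T + (L + 1) ≤ m →
    CZ D.Z l (fun _ => win Y (σ * m) L) k c c₀ u fun i _ => ζ i

end gen

open M Mod61 Nk89 Cht98 Rf65 Wrd81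
open An.Job (SolOn StrOn isClopen_un)

variable {Wi : Type} {X : Mf 4} {A κ lam : Type} [Fintype A] [Fintype κ] [Fintype lam]
  [DecidableEq lam] {M : Mark X A κ} {W : World M} {N : ML M lam} {Λ : Lns W N}
  {A' h : Type} [Fintype A'] [DecidableEq A'] [Fintype h] {r n : ℕ}
  {J : Job Wi Λ A' h r n} {c : M.Cl} {σ : Cel A'} {p : Prt A A' h} {a : A} {b : Bool}

theorem pm_sg (b : Bool) : -pm b = 1 ∨ -pm b = -1 := by cases b <;> simp [pm]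

theorem dr_sub (b : Bool) : ∀ S ∈ dr b, ∃ T, {s | T < -pm b * s} ⊆ S := fun S hS => by
  cases b
  · obtain ⟨T, h⟩ := mem_atTop_sets.1 hS
    exact ⟨T, fun s hs => h s (by simpa [pm] using le_of_lt hs.out)⟩
  · obtain ⟨T, h⟩ := mem_atBot_sets.1 hS
    exact ⟨-T, fun s hs => h s (by simpa [pm] using le_of_lt hs.out)⟩

theorem J_end (hJ : J.OK) {s : Prm A} (ha : Act J.m c a (some b) s) :
    (J.K c a _ s ha).J = {s | 0 < -pm b * s} := by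
  rw [Nk.J, (hJ.nk _ _ _ _ ha).lo, (hJ.nk _ _ _ _ ha).hi]
  cases b <;> ext <;> simp [Jv, pm]

/-- the perturbations vanish off one compact set -/
theorem τ_unif (hJ : J.OK) (hP : PJ J c) (hσ : σ ∈ J.𝒦) {s₀ : A' → ℝ} (h0 : J.Ov σ c s₀)
    (S : Finset Wi) : ∃ C, IsCompact C ∧ ∀ s, J.Ov σ c s → ∀ q : Wi →₀ ℝ, q.support ⊆ S →
      ∀ x, ∀ z ∉ C, (J.τ c q s).D x z = 0 ∧ (J.τ c q s).C x z = 0 := by
  have : ∀ w, ∃ K, IsCompact K ∧ ∀ s, J.Ov σ c s → ∀ (x : Cfg _ _ _ r), ∀ z ∉ K, J.co w s = 0 ∨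
      x.tD (J.B c) (J.G c s).F ((J.tp c).tm (J.tw w)) z = 0 ∧
      x.tC (J.B c) (J.G c s).F ((J.tp c).tm (J.tw w)) z = 0 := fun w => by
    by_cases e : ∃ s, J.Ov σ c s ∧ J.co w s ≠ 0
    · obtain ⟨s, hs, e⟩ := e
      obtain ⟨_, k⟩ := hJ.tw_in hσ hs e
      obtain ⟨K, k1, -, k3⟩ := k.supp (ι := Option κ)
      exact ⟨K, k1, fun s _ x z hz => .inr (k3 x _ _ z hz)⟩
    · exact ⟨∅, isCompact_empty, fun s hs _ _ _ => .inl (by_contra fun k => e ⟨s, hs, k⟩)⟩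
  choose K k1 k2 using this
  refine ⟨_, (S.isCompact_biUnion fun w _ => k1 w).union
    (isCompact_thk W.toCaps c (J.Θ s₀) one_pos (by norm_num)), fun s hs q hq x z hz => ?_⟩
  have hO := hJ.memO hσ hs
  have hz' : z ∉ thk W.toCaps c (J.Θ s) 1 := fun e => hz (.inr (by
    rw [thk, Nw_eq hO, ← Nw_eq (hJ.memO hσ h0)] at e; exact e))
  have b : ∀ w ∈ q.support, (J.τw c s w).D x z = 0 ∧ (J.τw c s w).C x z = 0 := fun w hw => by
    have b : ∀ (i : A × Option Bool) (k : J.Ac c s i), (fsum (fun T => (J.xs i.1).N.q2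
        (J.K c i.1 i.2 _ k) T.1) (J.ν i.1 s • (J.xs i.1).ty w) : Pt _ _ _ r n).D x z = 0 ∧
        (fsum (fun T => (J.xs i.1).N.q2 (J.K c i.1 i.2 _ k) T.1)
          (J.ν i.1 s • (J.xs i.1).ty w) : Pt _ _ _ r n).C x z = 0 := by
      rintro ⟨a, _ | b⟩ k
      · have := fun T => Wrd81.q2_off (n := n) (J.xs a).N (J.K c a none _ k) x
          (fun e => hz' (Spl54.nk_thk hJ hO k e)) T
        simp [fsum, Finsupp.sum, this]
      · simp [(hP.nil a ⟨k.2.2.2, k.1⟩).2, fsum]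
    rcases k2 w s hs x z fun e => hz (.inl (mem_biUnion (hq hw) e)) with k | k <;>
      simp [Job.τw, Pt.add, Pt.smul, Pt.dsum, An.tmP, b, k]
  simp only [Job.τ, Pt.add, fsum, Finsupp.sum, Spl54.τ0_cpt hJ hP hO x hz', zero_add]
  exact ⟨Finset.sum_eq_zero fun w hw => by rw [(b w hw).1, smul_zero],
    Finset.sum_eq_zero fun w hw => by rw [(b w hw).2, smul_zero]⟩

/-- the unperturbed equations -/
theorem eq_off (hp : J.POK σ c p) {q : Wi →₀ ℝ} {y : J.Obc c} (S : SolOn p σ q y)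
    {z : (W.Z c).M} (hz : z ∈ W.un c p.P) (h : (J.τ c q y.s).D y.x z = 0 ∧ (J.τ c q y.s).C y.x z = 0) :
    dir (W.Z c).I (J.G c y.s).F.e y.x.m.ρ y.x.W y.x.Φ z = 0 ∧
      y.x.m.p2 (J.B c) z (y.x.m.Fg (J.G c y.s).F y.x.W z) = y.x.m.mu (J.B c) z (y.x.Φ z) (y.x.Φ z) := by
  have h2 := S.C z hz
  rw [Cfg.eC, h.2, sub_zero, sub_eq_zero] at h2
  refine ⟨?_, h2⟩
  by_cases k : z ∈ W.un c p.P'
  · have h1 := S.D z k
    rwa [Cfg.eD, h.1, sub_zero] at h1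
  · have e : y.x.Φ =ᶠ[𝓝 z] fun _ => 0 := eventually_of_mem
      ((isClopen_un fun _ k => hp.pc _ (hp.sub k)).compl.2.mem_nhds k) S.off
    refine Finset.sum_eq_zero fun a _ => ?_
    rw [Wz78.nab_congr a e, Wz78.nab, Sob92.dv_const]
    simp

/-- **the data of an end** -/
theorem endD (hJ : J.OK) (hσ : σ ∈ J.𝒦) (hp : J.POK σ c p) (ha : a ∈ cylW c) (hb : p.En a b)
    {α : Type} {l : Filter α} {q : α → Wi →₀ ℝ} {y : α → J.Obc c} {q₀ : Wi →₀ ℝ} {y₀ : J.Obc c}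
    (hy : ∀ᶠ k in l, SolOn p σ (q k) (y k)) (h0 : SolOn p σ q₀ y₀) (st : StrOn p l y y₀)
    (hB : ∀ β, (J.xs a).N.Crit (J.xs a).D β → Bs (J.xs a).D β) {C : Set (W.Z c).M}
    (hC : IsCompact C) (hτ : ∀ᶠ k in l, ∀ ha : Act J.m c a (some b) (J.Θ (y k).s),
      ∀ z ∈ (J.K c a _ _ ha).ψ.target, z ∉ C →
      (J.τ c (q k) (y k).s).D (y k).x z = 0 ∧ (J.τ c (q k) (y k).s).C (y k).x z = 0) :
    ∃ (T : ℝ) (ψ : α → (J.xs a).Y.M × ℝ → (W.Z c).M) (c₀ : _), 0 ≤ T ∧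
      (∀ᶠ k in l, ∃ ha, ψ k = (J.K c a (some b) (J.Θ (y k).s) ha).ψ) ∧
      EndD (J.xs a).D (-pm b) T l (fun k => pb (ψ k) (y k).x) (fun k => (y k).β a b) c₀
        (y₀.β a b) := by
  have ac : ∀ {q y}, SolOn p σ q y → Act J.m c a (some b) (J.Θ y.s) := fun S =>
    ⟨ha.2, hJ.memBr hσ S.ov, hJ.memO hσ S.ov, ha.1⟩
  set K := J.K c a _ _ (ac h0)
  have : Nonempty ((J.xs a).Y.M × ℝ → (W.Z c).M) := ⟨K.ψ⟩
  obtain ⟨ψ, hψ⟩ := skolem.1 (hy.mono fun k S => (⟨_, ac S, rfl⟩ :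
    ∃ ψ : (J.xs a).Y.M × ℝ → (W.Z c).M, ∃ ha, ψ = (J.K c a (some b) (J.Θ (y k).s) ha).ψ))
  obtain ⟨T₀, hT⟩ := (hC.image (continuous_const (y := -pm b).mul K.cont)).bddAbove
  have sub : ∀ {s} (ha : Act J.m c a (some b) s),
      {t | max T₀ 0 < -pm b * t} ⊆ (J.K c a _ _ ha).J := fun ha t ht =>
    (J_end hJ ha).ge (show 0 < -pm b * t from (le_max_right T₀ 0).trans_lt ht)
  have b0 := hB _ (h0.crit a ha b hb)
  obtain ⟨u, ζ, hu, -⟩ := st.lim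
  refine ⟨max T₀ 0, ψ, K.pb y₀.x, le_max_right _ _, hψ, ?_, ?_, b0, fun η hη => ?_,
    admOn_nk K h0.adm (sub _), ⟨_, limY_nk K b0.adm h0.adm (dr_sub b) (h0.lim a b _ hb)⟩,
    fun i z => u i (K.ψ z), ζ, fun k m L hm => cz_nk K hu (isClopen_un hp.pc).2
      (hJ.end_sub _ hp.pc hb) h0.adm ?_ (fun t ht => sub _ ?_) k⟩
  · filter_upwards [hy, hψ] with k S ⟨ha', e⟩
    have := hB _ (S.crit a ha b hb)
    rw [e]
    exact ⟨admOn_nk _ S.adm (sub _), this, _, limY_nk _ this.adm S.adm (dr_sub b) (S.lim a b _ hb)⟩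
  · filter_upwards [hy, hψ, hτ] with k S ⟨ha', e⟩ h
    rw [e]
    refine eqs_nk _ (sub _) fun z hz ht => eq_off hp S (hJ.end_sub _ hp.pc hb hz)
      (h _ z hz fun k => not_le.2 ((le_max_left T₀ 0).trans_lt ht.out) ?_)
    rw [(hJ.end_eq (ac h0) ha').tm ((hJ.end_eq (ac h0) ha').tgt ▸ hz)]
    exact hT ⟨z, k, rfl⟩
  · obtain ⟨T, h⟩ := st.tail a b hb η hη
    refine ⟨T, ?_⟩
    filter_upwards [hy, hψ, h] with k S ⟨ha', e⟩ h s hs
    obtain ⟨h1, v, ξ, h2⟩ := h ha' (-pm b * s) (by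
      rcases pm_sg b with e | e <;> rw [e] <;> linarith)
    rw [e]
    exact ⟨v, ξ, cl_of_cls b0.adm (admOn_nk _ S.adm h1) h2⟩
  · filter_upwards [hy, hψ] with k S ⟨ha', e⟩
    refine ⟨S.adm.ok, fun x hx i => ?_, fun z hz => e ▸ (hJ.end_eq (ac h0) ha').ψ hz⟩
    rw [← (agr_end Λ ha (ac h0).2.2.1 ha'.2.2.1).e x (isNk_sub (ac h0) (hJ.nk _ _ _ _ _) hx) i]
    exact congrFun (congrFun (Lay.F_e _ (Mark.mem_Ω _ ha'.2.2.1)).symm i) x
  · show _ < -pm b * t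
    rcases pm_sg b with e | e <;> rw [e] at ht ⊢ <;> linarith [ht.1, ht.2]

end Crest.Agent.X212.Pte3
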